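import Vale.Agent.P132.M723.Part
import Vale.Agent.P132.H723.AvgState

/-!
# P132: the block lemma
-/

open Filter Topology
open scoped ComplexConjugate InnerProductSpace BoundedContinuousFunction

namespace Vale.Agent.P132

universe u

variable {H : Type u} [NormedAddCommGroup H] [InnerProductSpace ℂ H] [CompleteSpace H]

section states

variable {M : VonNeumannAlgebra H} {φ : (H →L[ℂ] H) → ℂ}

theorem state_add (hφ : IsNormalState M φ) {a b : H →L[ℂ] H} (ha : a ∈ M) (hb : b ∈ M) :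
    φ (a + b) = φ a + φ b := by
  obtain ⟨V, -, hV⟩ := PD.exists_vec hφ
  rw [hV _ (add_mem ha hb), hV _ ha, hV _ hb, amp_add, add_apply,
    inner_add_right]

theorem state_zero (hφ : IsNormalState M φ) : φ 0 = 0 := by
  obtain ⟨V, -, hV⟩ := PD.exists_vec hφ
  rw [hV _ (zero_mem M), amp_zero]
  simp

theorem state_one (hφ : IsNormalState M φ) : φ 1 = 1 := by
  obtain ⟨V, hV1, hV⟩ := PD.exists_vec hφ
  rw [hV _ (one_mem M), amp_one]
  show ⟪V, V⟫_ℂ = 1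
  rw [inner_self_eq_norm_sq_to_K, hV1]
  simp

theorem state_smul (hφ : IsNormalState M φ) (c : ℂ) {a : H →L[ℂ] H} (ha : a ∈ M) :
    φ (c • a) = c * φ a := by
  obtain ⟨V, -, hV⟩ := PD.exists_vec hφ
  rw [hV _ (M.toStarSubalgebra.smul_mem ha c), hV _ ha, amp_smul, smul_apply, inner_smul_right]

theorem state_sub (hφ : IsNormalState M φ) {a b : H →L[ℂ] H} (ha : a ∈ M) (hb : b ∈ M) :
    φ (a - b) = φ a - φ b := by
  have h1 := state_add hφ (sub_mem ha hb) hb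
  rw [sub_add_cancel] at h1
  rw [h1]; ring

theorem state_sum (hφ : IsNormalState M φ) {κ : Type*} (s : Finset κ) {b : κ → (H →L[ℂ] H)}
    (hb : ∀ i ∈ s, b i ∈ M) : φ (∑ i ∈ s, b i) = ∑ i ∈ s, φ (b i) := by
  classical
  induction s using Finset.induction_on with
  | empty => simp [state_zero hφ]
  | insert a s ha ih =>
    rw [Finset.sum_insert ha, Finset.sum_insert ha,
      state_add hφ (hb a (Finset.mem_insert_self a s))
        (sum_mem fun i hi => hb i (Finset.mem_insert_of_mem hi)),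
      ih fun i hi => hb i (Finset.mem_insert_of_mem hi)]

theorem state_norm_le (hφ : IsNormalState M φ) {a : H →L[ℂ] H} (ha : a ∈ M) : ‖φ a‖ ≤ ‖a‖ := by
  obtain ⟨V, hV1, hV⟩ := PD.exists_vec hφ
  rw [hV _ ha]
  refine (norm_inner_le_norm _ _).trans ?_
  rw [hV1, one_mul]
  refine ((amp a).le_opNorm V).trans ?_
  rw [hV1, mul_one]
  exact norm_amp_le a

theorem state_sq_nonneg (hφ : IsNormalState M φ) {a : H →L[ℂ] H} (ha : a ∈ M) :
    0 ≤ (φ (star a * a)).re := by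
  obtain ⟨V, hV1, hV⟩ := PD.exists_vec hφ
  rw [hV _ (mul_mem (star_mem ha) ha), amp_mul, amp_star, Cmp.inner_star_mul_self]
  rw [← Complex.ofReal_pow, Complex.ofReal_re]
  positivity

end states

open Classical in
omit [CompleteSpace H] in
theorem sum_image_pu {E : Type*} [AddCommMonoid E] {n : ℕ} {q : ℕ → H →L[ℂ] H}
    (hid : ∀ l, q l * q l = q l) (horth : ∀ l k, l ≠ k → q l * q k = 0)
    (F : (H →L[ℂ] H) → E) (h0 : F 0 = 0) :
    ∑ p ∈ ((Finset.range n).image q).erase 0, F p = ∑ l ∈ Finset.range n, F (q l) := by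
  have e1 : ((Finset.range n).image q).erase 0 =
      ((Finset.range n).filter fun l => q l ≠ 0).image q := by
    ext p
    simp only [Finset.mem_erase, Finset.mem_image, Finset.mem_filter]
    constructor
    · rintro ⟨h1, l, h2, rfl⟩
      exact ⟨l, ⟨h2, h1⟩, rfl⟩
    · rintro ⟨l, ⟨h2, h1⟩, rfl⟩
      exact ⟨h1, l, h2, rfl⟩
  rw [e1, Finset.sum_image, Finset.sum_filter_of_ne]
  · intro l _ h2 h3
    exact h2 (by rw [h3, h0])
  · intro l hl k hk hlk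
    by_contra hne
    have h1 := horth l k hne
    have hl' : q l ≠ 0 := (Finset.mem_filter.1 hl).2
    rw [← hlk, hid] at h1
    exact hl' h1

open Classical in
/-- partitions from families -/
theorem part_of_pu {M : VonNeumannAlgebra H} {n : ℕ} {q : ℕ → H →L[ℂ] H} (h : PU M n q) :
    Part M (((Finset.range n).image q).erase 0) where
  pr := fun p hp => by
    obtain ⟨-, h2⟩ := Finset.mem_erase.1 hp
    obtain ⟨l, -, rfl⟩ := Finset.mem_image.1 h2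
    exact h.pr l
  ne := fun p hp => (Finset.mem_erase.1 hp).1
  orth := fun p hp p' hp' hne => by
    obtain ⟨l, -, rfl⟩ := Finset.mem_image.1 (Finset.mem_erase.1 hp).2
    obtain ⟨k, -, rfl⟩ := Finset.mem_image.1 (Finset.mem_erase.1 hp').2
    exact h.orth l k fun h1 => hne (by rw [h1])
  sum := by
    rw [sum_image_pu (fun l => (h.pr l).idem) h.orth (fun p => p) rfl, h.sum]

theorem exists_part {M : VonNeumannAlgebra H} {n : ℕ} {q : ℕ → H →L[ℂ] H} (h : PU M n q) :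
    ∃ Q : Finset (H →L[ℂ] H), Part M Q ∧
      (∀ F : (H →L[ℂ] H) → (H →L[ℂ] H), F 0 = 0 → ∑ p ∈ Q, F p = ∑ l ∈ Finset.range n, F (q l)) ∧
      ∀ F : (H →L[ℂ] H) → ℝ, F 0 = 0 → ∑ p ∈ Q, F p = ∑ l ∈ Finset.range n, F (q l) := by
  classical
  exact ⟨((Finset.range n).image q).erase 0, part_of_pu h,
    fun F => sum_image_pu (fun l => (h.pr l).idem) h.orth F,
    fun F => sum_image_pu (fun l => (h.pr l).idem) h.orth F⟩

theorem sq_close {u v : ℂ} {τ Y : ℝ} (hτ : 0 ≤ τ) (hu : ‖u‖ ≤ Y) (h : ‖v - u‖ ≤ 3 * τ * Y) :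
    ‖u‖ ^ 2 - 6 * τ * Y ^ 2 ≤ ‖v‖ ^ 2 := by
  have h10 : ‖u‖ ≤ ‖v‖ + 3 * τ * Y := by
    have h11 : u = v - (v - u) := by ring
    calc ‖u‖ ≤ ‖v‖ + ‖v - u‖ := by
          conv_lhs => rw [h11]
          exact norm_sub_le _ _
      _ ≤ _ := add_le_add le_rfl h
  have h13 := norm_nonneg u
  have h14 := norm_nonneg v
  have h15 : 0 ≤ Y := h13.trans hu
  have hτY : 0 ≤ 3 * τ * Y := by positivity
  rcases le_total (‖u‖) (3 * τ * Y) with h16 | h16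
  · have h17 : ‖u‖ ^ 2 ≤ (3 * τ * Y) * Y := by
      calc ‖u‖ ^ 2 = ‖u‖ * ‖u‖ := by ring
        _ ≤ (3 * τ * Y) * Y := mul_le_mul h16 hu h13 hτY
    have h18 : 0 ≤ ‖v‖ ^ 2 := by positivity
    have h19 : 0 ≤ τ * Y ^ 2 := by positivity
    linarith
  · have h17 : (‖u‖ - 3 * τ * Y) ^ 2 ≤ ‖v‖ ^ 2 :=
      pow_le_pow_left₀ (by linarith) (by linarith) 2
    have h18 : 2 * (3 * τ * Y) * ‖u‖ ≤ 2 * (3 * τ * Y) * Y := by
      apply mul_le_mul_of_nonneg_left hu; positivity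
    have h19 := sq_nonneg (3 * τ * Y)
    have h20 : (‖u‖ - 3 * τ * Y) ^ 2 = ‖u‖ ^ 2 - 2 * (3 * τ * Y) * ‖u‖ + (3 * τ * Y) ^ 2 := by ring
    have h21 : 2 * (3 * τ * Y) * Y = 6 * τ * Y ^ 2 := by ring
    linarith

theorem sum_div_ge (n : ℕ) (a : ℕ → ℂ) (b : ℕ → ℝ) (hb : ∀ l, 0 ≤ b l)
    (h0 : ∀ l, b l = 0 → a l = 0) (h1 : ∑ l ∈ Finset.range n, b l = 1) :
    ‖∑ l ∈ Finset.range n, a l‖ ^ 2 ≤ ∑ l ∈ Finset.range n, ‖a l‖ ^ 2 / b l := by
  have h7 := Finset.sum_sq_le_sum_mul_sum_of_sq_le_mul (Finset.range n)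
    (r := fun l => ‖a l‖) (f := fun l => ‖a l‖ ^ 2 / b l)
    (g := b) (fun l _ => div_nonneg (by positivity) (hb l)) (fun l _ => hb l)
    (fun l _ => by
      rcases eq_or_ne (b l) 0 with h2 | h2
      · simp [h0 l h2]
      · rw [div_mul_cancel₀ _ h2])
  rw [h1, mul_one] at h7
  exact (pow_le_pow_left₀ (norm_nonneg _) (norm_sum_le _ _) 2).trans h7

theorem tau_bounds {C ε : ℝ} (hC0 : 0 ≤ C) (hε : 0 < ε) : ∃ τ : ℝ, 0 < τ ∧ τ ≤ 1 ∧ 3 * τ ≤ ε ∧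
    τ ^ 4 + τ ^ 3 ≤ ε ∧ 9 * τ * C + τ ^ 4 ≤ ε ∧ τ ≤ ε := by
  have hτ0 : 0 < min 1 (ε / (9 * C + 3)) := lt_min one_pos (by positivity)
  have hτ1 : min 1 (ε / (9 * C + 3)) ≤ 1 := min_le_left _ _
  have h1 : min 1 (ε / (9 * C + 3)) ≤ ε / (9 * C + 3) := min_le_right _ _
  rw [le_div_iff₀ (by positivity)] at h1
  set τ : ℝ := min 1 (ε / (9 * C + 3))
  have hC : 0 ≤ τ * C := by positivity
  have hτ3' : τ ^ 3 ≤ τ := by
    calc τ ^ 3 = τ * (τ * τ) := by ring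
      _ ≤ τ * (1 * 1) := by gcongr
      _ = τ := by ring
  have hτ4 : τ ^ 4 ≤ τ := by
    calc τ ^ 4 = τ * τ ^ 3 := by ring
      _ ≤ τ * 1 := by
        apply mul_le_mul_of_nonneg_left _ hτ0.le
        exact hτ3'.trans hτ1
      _ = τ := by ring
  refine ⟨τ, hτ0, hτ1, ?_, ?_, ?_, ?_⟩ <;> nlinarith

/-- the data produced by the core lemma, on `M` -/
structure BD (M : VonNeumannAlgebra H) (φ : (H →L[ℂ] H) → ℂ) {K : Type u}
    [NormedAddCommGroup K] [InnerProductSpace ℂ K] [CompleteSpace K] (R : StdRep M φ K)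
    (n : ℕ) (q : ℕ → H →L[ℂ] H) (e : ℕ → K →L[ℂ] K) : Prop where
  pu : PU M n q
  pue : PU R.N n e
  eq : ∀ l, e l = R.π (q l)

theorem BD.of_pu {M : VonNeumannAlgebra H} {φ : (H →L[ℂ] H) → ℂ} {K : Type u}
    [NormedAddCommGroup K] [InnerProductSpace ℂ K] [CompleteSpace K] (R : StdRep M φ K)
    {n : ℕ} {e : ℕ → K →L[ℂ] K} (hpu : PU R.N n e) : ∃ q, BD M φ R n q e := by
  choose q hqM hq using fun l => R.surj _ (hpu.pr l).mem
  have hqpr : ∀ l, Cmp.IsPr M (q l) := by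
    intro l
    refine ⟨hqM l, ?_, ?_⟩
    · apply R.injective (star_mem (hqM l)) (hqM l)
      rw [R.map_star _ (hqM l), ← hq, (hpu.pr l).sa]
    · apply R.injective (mul_mem (hqM l) (hqM l)) (hqM l)
      rw [R.map_mul _ (hqM l) _ (hqM l), ← hq, (hpu.pr l).idem]
  refine ⟨q, ⟨hqpr, fun i j hij => ?_, ?_⟩, hpu, hq⟩
  · apply R.injective (mul_mem (hqM i) (hqM j)) (zero_mem M)
    rw [R.map_mul _ (hqM i) _ (hqM j), ← hq, ← hq, hpu.orth i j hij, R.map_zero']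
  · apply R.injective (sum_mem fun i _ => hqM i) (one_mem M)
    have h1 : ∀ s : Finset ℕ, R.π (∑ i ∈ s, q i) = ∑ i ∈ s, e i := by
      intro s
      induction s using Finset.induction_on with
      | empty => simp [R.map_zero']
      | insert a s ha ih =>
        rw [Finset.sum_insert ha, Finset.sum_insert ha,
          R.map_add _ (hqM a) _ (sum_mem fun i _ => hqM i), ih, ← hq]
    rw [h1, hpu.sum, R.map_one]

theorem BD.inner {M : VonNeumannAlgebra H} {φ : (H →L[ℂ] H) → ℂ} {K : Type u}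
    [NormedAddCommGroup K] [InnerProductSpace ℂ K] [CompleteSpace K] {R : StdRep M φ K}
    {n : ℕ} {q : ℕ → H →L[ℂ] H} {e : ℕ → K →L[ℂ] K} (h : BD M φ R n q e) (l : ℕ)
    {y : H →L[ℂ] H} (hy : y ∈ M) :
    φ (q l * y * q l) = ⟪e l R.ξ, R.π y (e l R.ξ)⟫_ℂ := by
  have hqM := (h.pu.pr l).mem
  rw [← R.state _ (mul_mem (mul_mem hqM hy) hqM),
    R.map_mul _ (mul_mem hqM hy) _ hqM, R.map_mul _ hqM _ hy, ← h.eq]
  calc ⟪R.ξ, (e l * R.π y * e l) R.ξ⟫_ℂ = ⟪R.ξ, star (e l) (R.π y (e l R.ξ))⟫_ℂ := by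
        rw [(h.pue.pr l).sa]; rfl
    _ = _ := BC.inner_star' _ _ _

theorem BD.pot1 {M : VonNeumannAlgebra H} {φ : (H →L[ℂ] H) → ℂ} {K : Type u}
    [NormedAddCommGroup K] [InnerProductSpace ℂ K] [CompleteSpace K] {R : StdRep M φ K}
    {n : ℕ} {q : ℕ → H →L[ℂ] H} {e : ℕ → K →L[ℂ] K} (h : BD M φ R n q e) (l : ℕ)
    {y : H →L[ℂ] H} (hy : y ∈ M) :
    pot1 φ (q l) y = ‖e l (R.π y (e l R.ξ))‖ ^ 2 -
      ‖⟪e l R.ξ, R.π y (e l R.ξ)⟫_ℂ‖ ^ 2 / ‖e l R.ξ‖ ^ 2 := by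
  have hqM := (h.pu.pr l).mem
  rw [Vale.Agent.P132.pot1, h.inner l hy]
  have h2 : (φ (q l)).re = ‖e l R.ξ‖ ^ 2 := by
    rw [← R.state _ hqM, ← h.eq, Cmp.inner_pr (h.pue.pr l).sa (h.pue.pr l).idem]
    norm_cast
  have h3 : (φ (star (q l * y * q l) * (q l * y * q l))).re =
      ‖e l (R.π y (e l R.ξ))‖ ^ 2 := by
    rw [← R.norm_sq (mul_mem (mul_mem hqM hy) hqM),
      R.map_mul _ (mul_mem hqM hy) _ hqM, R.map_mul _ hqM _ hy, ← h.eq]
    rfl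
  rw [h2, h3]

/-- **The block lemma.** -/
theorem block {M : VonNeumannAlgebra H} (hM : IsTypeIIIOneFactor M)
    {φ : (H →L[ℂ] H) → ℂ} (hφ : IsNormalState M φ) (hf : IsFaithful M φ)
    {ι : Type} [Fintype ι] {x : ι → H →L[ℂ] H} (hx : ∀ j, x j ∈ M) {ε : ℝ} (hε : 0 < ε) :
    ∃ Q : Finset (H →L[ℂ] H), Part M Q ∧
      (∀ y ∈ M, ‖φ (pinch Q y) - φ y‖ ≤ ε * ‖y‖) ∧
      (∃ ρ, NPF M ρ ε ∧ ∀ y ∈ M, (φ (pinch Q (star y * y))).re ≤
        (1 + ε) * (φ (star y * y)).re + (ρ (star y * y)).re) ∧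
      ∑ j, pot φ Q (x j) ≤
        7 / 8 * ∑ j, ((φ (star (x j) * x j)).re - ‖φ (x j)‖ ^ 2) + ε := by
  have hS : ∀ t : ℝ, 0 < t → t ∈ connesS M := fun t ht =>
    connesInvariant_subset (by rw [hM.connes]; exact ht.le)
  have hIII := isTypeIII_of_connesS hM.factor hS hφ hf
  obtain ⟨K, _, _, _, ⟨R⟩⟩ := exists_stdRep M φ hφ hf
  obtain ⟨D⟩ := exists_modData R.N R.ξ R.norm_xi R.cyc R.sep
  have hcore : ∀ x, D.InN x → ∃ c : ℂ, x = c • 1 := D.core (R.factor hM.factor)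
    (R.typeIII (isTypeIII_of_state hM.factor hφ hf hIII)) (R.hspec_pos hS)
  set C : ℝ := ∑ j, ‖x j‖ ^ 2 with hC
  have hC0 : 0 ≤ C := Finset.sum_nonneg fun j _ => by positivity
  obtain ⟨τ, hτ0, hτ1, hτ3, hτ43, hτ9, hτε⟩ := tau_bounds hC0 hε
  obtain ⟨n, e, hpu, hsm, hjw⟩ := D.exists_partition hcore (x := fun j => R.π (x j))
    (fun j => R.mem _ (hx j)) (ε := τ ^ 4) (by positivity)
  obtain ⟨q, hbd⟩ := BD.of_pu R hpu
  obtain ⟨Q, hQ, hQs, hQr⟩ := exists_part hbd.pu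
  have hqM : ∀ l, q l ∈ M := fun l => (hbd.pu.pr l).mem
  have hpinch : ∀ y ∈ M, φ (pinch Q y) =
      ∑ l ∈ Finset.range n, ⟪e l R.ξ, R.π y (e l R.ξ)⟫_ℂ := by
    intro y hy
    rw [pinch, hQs (fun p => p * y * p) (by simp),
      state_sum hφ _ fun l _ => mul_mem (mul_mem (hqM l) hy) (hqM l)]
    exact Finset.sum_congr rfl fun l _ => hbd.inner l hy
  have hclose : ∀ y ∈ M, ‖φ (pinch Q y) - φ y‖ ≤ 3 * τ * ‖y‖ := by
    intro y hy
    rw [hpinch y hy, ← R.state _ hy]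
    refine (D.vec_close hpu hτ0 hτ1 hsm (R.mem y hy)).trans ?_
    exact mul_le_mul_of_nonneg_left (R.norm_le y hy) (by positivity)
  refine ⟨Q, hQ, fun y hy => ?_, ?_, ?_⟩
  · exact (hclose y hy).trans (mul_le_mul_of_nonneg_right hτ3 (norm_nonneg _))
  · obtain ⟨θ, hθ1, hθ⟩ := NPF.sum (M := M) (Finset.range n)
      (ρ := fun l x => ⟪D.cm (e l) R.ξ, R.π x (D.cm (e l) R.ξ)⟫_ℂ)
      (m := fun l => ‖D.cm (e l) R.ξ‖ ^ 2) fun l _ => R.npf _
    refine ⟨fun x => ((1 + τ⁻¹ : ℝ) : ℂ) * θ x, ?_, fun y hy => ?_⟩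
    · refine (hθ1.smul (c := 1 + τ⁻¹) (by positivity)).mono ?_
      calc (1 + τ⁻¹) * ∑ l ∈ Finset.range n, ‖D.cm (e l) R.ξ‖ ^ 2 ≤ (1 + τ⁻¹) * τ ^ 4 := by
            gcongr
        _ = τ ^ 4 + τ ^ 3 := by field_simp
        _ ≤ ε := hτ43
    · have hyy : star y * y ∈ M := mul_mem (star_mem hy) hy
      have h1 : ∀ c : K, ⟪c, R.π (star y * y) c⟫_ℂ = ((‖R.π y c‖ ^ 2 : ℝ) : ℂ) := by
        intro c
        rw [R.map_mul _ (star_mem hy) _ hy, R.map_star _ hy, Cmp.inner_star_mul_self]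
        norm_cast
      rw [hpinch _ hyy, Complex.re_ofReal_mul, hθ _ hyy]
      simp only [h1]
      rw [← Complex.ofReal_sum, ← Complex.ofReal_sum, Complex.ofReal_re, Complex.ofReal_re,
        ← R.norm_sq hy]
      have h2 := D.vec_dom hpu hτ0 (R.mem y hy)
      have h3 : (1 + τ) * ‖R.π y R.ξ‖ ^ 2 ≤ (1 + ε) * ‖R.π y R.ξ‖ ^ 2 := by
        gcongr
      linarith
  · have hone : ∀ j, pot φ Q (x j) ≤
        ∑ l ∈ Finset.range n, D.jw e (R.π (x j) R.ξ) l l - ‖φ (x j)‖ ^ 2 +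
          9 * τ * ‖x j‖ ^ 2 := by
      intro j
      have hyM : x j ∈ M := hx j
      have hz : φ 0 = 0 := state_zero hφ
      rw [pot, hQr (fun p => pot1 φ p (x j)) (by simp [pot1, hz])]
      simp only [hbd.pot1 _ hyM, Finset.sum_sub_distrib]
      have h4 := D.vec_pinch hpu hτ0 hτ1 hsm (R.mem _ hyM)
      have h5 : ‖R.π (x j)‖ ^ 2 ≤ ‖x j‖ ^ 2 :=
        pow_le_pow_left₀ (norm_nonneg _) (R.norm_le _ hyM) 2
      have h6 := sum_div_ge n (fun l => ⟪e l R.ξ, R.π (x j) (e l R.ξ)⟫_ℂ)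
        (fun l => ‖e l R.ξ‖ ^ 2) (fun l => by positivity) (fun l h0 => by
          have h1 : e l R.ξ = 0 := by simpa using h0
          simp [h1]) (D.sum_e_sq hpu)
      have h9 := hclose _ hyM
      rw [hpinch _ hyM] at h9
      have h8 := sq_close hτ0.le (state_norm_le hφ hyM) h9
      have h20 : 3 * τ * ‖R.π (x j)‖ ^ 2 ≤ 3 * τ * ‖x j‖ ^ 2 := by gcongr
      linarith
    have h1 := Finset.sum_le_sum fun j (_ : j ∈ Finset.univ) => hone j
    rw [Finset.sum_add_distrib, Finset.sum_sub_distrib, ← Finset.mul_sum] at h1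
    have h2 : ∀ j, (φ (star (x j) * x j)).re = ‖R.π (x j) R.ξ‖ ^ 2 := fun j =>
      (R.norm_sq (hx j)).symm
    have h3 : ModData.tvar R.ξ (fun j => R.π (x j)) =
        ∑ j, (‖R.π (x j) R.ξ‖ ^ 2 - ‖φ (x j)‖ ^ 2) := by
      unfold ModData.tvar
      refine Finset.sum_congr rfl fun j _ => ?_
      rw [R.state _ (hx j)]
    simp only [h2]
    rw [h3] at hjw
    have h4 : ∑ j, (‖R.π (x j) R.ξ‖ ^ 2 - ‖φ (x j)‖ ^ 2) =
        ∑ j, ‖R.π (x j) R.ξ‖ ^ 2 - ∑ j, ‖φ (x j)‖ ^ 2 := Finset.sum_sub_distrib _ _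
    rw [h4] at hjw ⊢
    rw [← hC] at h1
    linarith

end Vale.Agent.P132
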