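import Vale.Agent.P132.M723.Cut
import Vale.Agent.P132.H723.AvgStd

/-!
# P132: a partition almost commuting with the vector decreases the variance
-/

open Filter Topology
open scoped ComplexConjugate InnerProductSpace BoundedContinuousFunction

namespace Vale.Agent.P132

universe u

variable {H : Type u} [NormedAddCommGroup H] [InnerProductSpace ℂ H] [CompleteSpace H]

namespace ModData

set_option linter.unusedSectionVars false

variable {M : VonNeumannAlgebra H} {ξ : H} (D : ModData M ξ) {ι : Type} [Fintype ι]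

/-- the total variance of the family -/
noncomputable def tvar (ξ : H) (x : ι → H →L[ℂ] H) : ℝ :=
  ∑ j, (‖x j ξ‖ ^ 2 - ‖⟪ξ, x j ξ⟫_ℂ‖ ^ 2)

theorem exists_comm_unitary (hcore : ∀ x, D.InN x → ∃ c : ℂ, x = c • 1)
    {x : ι → H →L[ℂ] H} (hx : ∀ j, x j ∈ M) {δ ε : ℝ} (hδ : 0 < δ) (hε : 0 < ε) :
    ∃ u ∈ M, u ∈ unitary (H →L[ℂ] H) ∧ ‖D.cm u ξ‖ ≤ δ ∧
      2 * tvar ξ x - ε ≤ ∑ j, ‖D.cm u (x j ξ)‖ ^ 2 := by
  set B : ℝ := ∑ j, ‖x j‖ with hB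
  have hB0 : 0 ≤ B := Finset.sum_nonneg fun j _ => norm_nonneg _
  have hBj : ∀ j, ‖x j‖ ≤ B := fun j =>
    Finset.single_le_sum (f := fun j => ‖x j‖) (fun j _ => norm_nonneg _) (Finset.mem_univ j)
  set κ : ℝ := ε / (4 * (B + 1) ^ 2) with hκ
  have hκ0 : 0 < κ := by positivity
  obtain ⟨n, c, u, hc0, hc1, hu, hsum⟩ := D.exists_averaging hcore hx
    (δ := min δ κ) (ε := κ) (lt_min hδ hκ0) hκ0
  have hζ : ∀ j, ‖x j ξ‖ ≤ ‖x j‖ := fun j => by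
    have := (x j).le_opNorm ξ
    rwa [D.norm_xi, mul_one] at this
  have hAd : ∀ i j, D.Ad (u i) (x j ξ) =
      (u i * x j * star (u i)) ξ - u i (x j (D.cm (star (u i)) ξ)) := by
    intro i j
    rw [D.Ad_apply, ← D.comm_Rm (hx j) (star_mem (hu i).1)]
    have h1 : D.Rm (star (u i)) ξ = star (u i) ξ - D.cm (star (u i)) ξ := by rw [cm]; abel
    rw [D.comm_Rm (hx j) (star_mem (hu i).1)] 
    rw [← D.comm_Rm (hx j) (star_mem (hu i).1), h1, map_sub, map_sub]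
    rfl
  have hsq : ∀ i j, ‖D.cm (u i) (x j ξ)‖ ^ 2 =
      2 * ‖x j ξ‖ ^ 2 - 2 * (⟪x j ξ, D.Ad (u i) (x j ξ)⟫_ℂ).re := by
    intro i j
    have h1 := (Unitary.mem_iff.1 (hu i).2.1)
    rw [← D.norm_Ad_sub (hu i).1 h1.1 h1.2, @norm_sub_sq ℂ H _ _ _, D.norm_Ad h1.1]
    have h2 : RCLike.re ⟪D.Ad (u i) (x j ξ), x j ξ⟫_ℂ = (⟪x j ξ, D.Ad (u i) (x j ξ)⟫_ℂ).re :=
      inner_re_symm (𝕜 := ℂ) _ _
    rw [h2]; ring
  -- the averages
  have havg : ∀ j, ‖∑ i, (c i : ℂ) • D.Ad (u i) (x j ξ) - ⟪ξ, x j ξ⟫_ℂ • ξ‖ ≤ κ + ‖x j‖ * κ := by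
    intro j
    have h1 : ∑ i, (c i : ℂ) • D.Ad (u i) (x j ξ) - ⟪ξ, x j ξ⟫_ℂ • ξ =
        ((∑ i, (c i : ℂ) • (u i * x j * star (u i))) ξ - ⟪ξ, x j ξ⟫_ℂ • ξ) -
          ∑ i, (c i : ℂ) • (u i (x j (D.cm (star (u i)) ξ))) := by
      simp only [hAd, smul_sub, Finset.sum_sub_distrib]
      rw [sum_apply]
      simp only [smul_apply]
      abel
    rw [h1]
    refine (norm_sub_le _ _).trans (add_le_add (hsum j) ?_)
    refine (norm_sum_le _ _).trans ?_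
    calc ∑ i, ‖(c i : ℂ) • (u i (x j (D.cm (star (u i)) ξ)))‖ ≤ ∑ i, c i * (‖x j‖ * κ) := by
          refine Finset.sum_le_sum fun i _ => ?_
          rw [norm_smul, Complex.norm_real, Real.norm_of_nonneg (hc0 i),
            norm_unitary_apply (hu i).2.1]
          refine mul_le_mul_of_nonneg_left ((x j).le_opNorm _ |>.trans ?_) (hc0 i)
          rw [D.norm_cm_star_xi]
          exact mul_le_mul_of_nonneg_left ((hu i).2.2.trans (min_le_right _ _)) (norm_nonneg _)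
      _ = ‖x j‖ * κ := by rw [← Finset.sum_mul, hc1, one_mul]
  have hone : ∀ j, 2 * (‖x j ξ‖ ^ 2 - ‖⟪ξ, x j ξ⟫_ℂ‖ ^ 2) - 2 * (‖x j‖ * (κ * (B + 1))) ≤
      ∑ i, c i * ‖D.cm (u i) (x j ξ)‖ ^ 2 := by
    intro j
    have h1 : ∑ i, c i * ‖D.cm (u i) (x j ξ)‖ ^ 2 = 2 * ‖x j ξ‖ ^ 2 -
        2 * (⟪x j ξ, ∑ i, (c i : ℂ) • D.Ad (u i) (x j ξ)⟫_ℂ).re := by
      simp only [hsq, inner_sum, inner_smul_right, Complex.re_sum, Complex.re_ofReal_mul]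
      rw [Finset.mul_sum]
      have h2 : ∑ i, c i * (2 * ‖x j ξ‖ ^ 2) = 2 * ‖x j ξ‖ ^ 2 := by
        rw [← Finset.sum_mul, hc1, one_mul]
      rw [← h2, ← Finset.sum_sub_distrib]
      refine Finset.sum_congr rfl fun i _ => ?_
      rw [h2]
      ring
    rw [h1]
    have h3 : (⟪x j ξ, ∑ i, (c i : ℂ) • D.Ad (u i) (x j ξ)⟫_ℂ).re ≤
        ‖⟪ξ, x j ξ⟫_ℂ‖ ^ 2 + ‖x j‖ * (κ * (B + 1)) := by
      have h4 : ∑ i, (c i : ℂ) • D.Ad (u i) (x j ξ) = ⟪ξ, x j ξ⟫_ℂ • ξ +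
          (∑ i, (c i : ℂ) • D.Ad (u i) (x j ξ) - ⟪ξ, x j ξ⟫_ℂ • ξ) := by abel
      rw [h4, inner_add_right, Complex.add_re]
      refine add_le_add ?_ ?_
      · rw [inner_smul_right]
        refine (Complex.re_le_norm _).trans ?_
        rw [norm_mul, norm_inner_symm (x j ξ) ξ]
        exact le_of_eq (by ring)
      · refine (Complex.re_le_norm _).trans ((norm_inner_le_norm _ _).trans ?_)
        refine mul_le_mul (hζ j) ((havg j).trans ?_) (norm_nonneg _) (norm_nonneg _)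
        have := hBj j
        nlinarith
    linarith
  by_contra hcon
  push Not at hcon
  have h5 : ∀ i, ∑ j, ‖D.cm (u i) (x j ξ)‖ ^ 2 ≤ 2 * tvar ξ x - ε := fun i =>
    (hcon (u i) (hu i).1 (hu i).2.1 ((hu i).2.2.trans (min_le_left _ _))).le
  have h6 : ∑ j, ∑ i, c i * ‖D.cm (u i) (x j ξ)‖ ^ 2 ≤ 2 * tvar ξ x - ε := by
    rw [Finset.sum_comm]
    calc ∑ i, ∑ j, c i * ‖D.cm (u i) (x j ξ)‖ ^ 2 = ∑ i, c i * ∑ j, ‖D.cm (u i) (x j ξ)‖ ^ 2 := by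
          simp only [Finset.mul_sum]
      _ ≤ ∑ i, c i * (2 * tvar ξ x - ε) :=
          Finset.sum_le_sum fun i _ => mul_le_mul_of_nonneg_left (h5 i) (hc0 i)
      _ = _ := by rw [← Finset.sum_mul, hc1, one_mul]
  have h7 := Finset.sum_le_sum fun j (_ : j ∈ Finset.univ) => hone j
  rw [Finset.sum_sub_distrib, ← Finset.mul_sum, ← Finset.mul_sum, ← Finset.sum_mul] at h7
  have h8 : 2 * (B * (κ * (B + 1))) ≤ ε / 2 := by
    calc 2 * (B * (κ * (B + 1))) ≤ 2 * ((B + 1) * (κ * (B + 1))) := by gcongr; linarith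
      _ = ε / 2 := by rw [hκ]; field_simp; norm_num
  have h9 : 2 * tvar ξ x - ε / 2 ≤ 2 * tvar ξ x - ε := by
    have h10 : 2 * tvar ξ x - 2 * (B * (κ * (B + 1))) ≤ 2 * tvar ξ x - ε := h7.trans h6
    linarith
  linarith

theorem cm_sa_parts (u : H →L[ℂ] H) : ∃ a b : H →L[ℂ] H, star a = a ∧ star b = b ∧
    u = a + Complex.I • b ∧ a = (2⁻¹ : ℂ) • (u + star u) ∧
      b = (-(Complex.I * 2⁻¹) : ℂ) • (u - star u) := by
  refine ⟨(2⁻¹ : ℂ) • (u + star u), (-(Complex.I * 2⁻¹) : ℂ) • (u - star u), ?_, ?_, ?_, rfl, rfl⟩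
  · rw [star_smul, star_add, star_star, add_comm (star u)]
    congr 1
    simp
  · rw [star_smul, star_sub, star_star]
    have h1 : star (-(Complex.I * 2⁻¹) : ℂ) = Complex.I * 2⁻¹ := by
      simp
    rw [h1]
    module
  · rw [smul_smul]
    have h1 : Complex.I * -(Complex.I * 2⁻¹) = 2⁻¹ := by
      have := Complex.I_mul_I
      linear_combination (-(2⁻¹ : ℂ)) * this
    rw [h1]
    module

/-- a positive contraction almost commuting with the vector -/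
theorem exists_comm_pos (hcore : ∀ x, D.InN x → ∃ c : ℂ, x = c • 1)
    {x : ι → H →L[ℂ] H} (hx : ∀ j, x j ∈ M) {δ ε : ℝ} (hδ : 0 < δ) (hε : 0 < ε) :
    ∃ t ∈ M, 0 ≤ t ∧ ‖t‖ ≤ 1 ∧ ‖D.cm t ξ‖ ≤ δ ∧
      tvar ξ x / 8 - ε ≤ ∑ j, ‖D.cm t (x j ξ)‖ ^ 2 := by
  obtain ⟨u, huM, huu, hud, hu⟩ := D.exists_comm_unitary hcore hx hδ (ε := 16 * ε) (by positivity)
  obtain ⟨a, b, ha, hb, hab, hau, hbu⟩ := cm_sa_parts (H := H) u
  have hun := norm_unitary_le_one huu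
  have hun' := norm_unitary_le_one (star_mem_unitary huu)
  -- a selfadjoint contraction
  have key : ∀ h : H →L[ℂ] H, h ∈ M → star h = h → ‖h‖ ≤ 1 → ‖D.cm h ξ‖ ≤ δ →
      tvar ξ x / 2 - 4 * ε ≤ ∑ j, ‖D.cm h (x j ξ)‖ ^ 2 →
      ∃ t ∈ M, 0 ≤ t ∧ ‖t‖ ≤ 1 ∧ ‖D.cm t ξ‖ ≤ δ ∧
        tvar ξ x / 8 - ε ≤ ∑ j, ‖D.cm t (x j ξ)‖ ^ 2 := by
    intro h hM hs h1 hc hv
    have hsa : IsSelfAdjoint h := hs
    have hle : h ≤ 1 := by
      have := hsa.le_algebraMap_norm_self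
      refine this.trans ?_
      rw [Algebra.algebraMap_eq_smul_one]
      calc ‖h‖ • (1 : H →L[ℂ] H) ≤ (1 : ℝ) • 1 := smul_le_smul_of_nonneg_right h1 zero_le_one
        _ = 1 := one_smul _ _
    have hge : -1 ≤ h := by
      have := hsa.neg_algebraMap_norm_le_self
      refine le_trans ?_ this
      rw [Algebra.algebraMap_eq_smul_one]
      apply neg_le_neg
      calc ‖h‖ • (1 : H →L[ℂ] H) ≤ (1 : ℝ) • 1 := smul_le_smul_of_nonneg_right h1 zero_le_one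
        _ = 1 := one_smul _ _
    set t : H →L[ℂ] H := (2⁻¹ : ℝ) • (1 + h) with ht
    have htC : t = (2⁻¹ : ℂ) • (1 + h) := by
      have e1 : t = ((2⁻¹ : ℝ) : ℂ) • (1 + h) := rfl
      have e2 : ((2⁻¹ : ℝ) : ℂ) = 2⁻¹ := by push_cast; rfl
      rw [e1, e2]
    have hcm : ∀ ζ, D.cm t ζ = (2⁻¹ : ℂ) • D.cm h ζ := by
      intro ζ
      rw [htC, D.cm_smul, D.cm_add]
      have : D.cm (1 : H →L[ℂ] H) ζ = 0 := by
        rw [cm, D.Rm_one]; simp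
      rw [this, zero_add]
    have hn2 : ‖(2⁻¹ : ℂ)‖ = 2⁻¹ := by norm_num
    refine ⟨t, ?_, ?_, ?_, ?_, ?_⟩
    · rw [htC]
      exact M.toStarSubalgebra.smul_mem (add_mem (one_mem M) hM) _
    · apply smul_nonneg (by norm_num)
      have := add_le_add_left hge (1 : H →L[ℂ] H)
      have e : (1 : H →L[ℂ] H) + -1 = 0 := by abel
      calc (0 : H →L[ℂ] H) = 1 + -1 := e.symm
        _ ≤ 1 + h := add_le_add le_rfl hge
    · rw [htC, norm_smul, hn2]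
      have h3 : ‖(1 : H →L[ℂ] H)‖ ≤ 1 := ContinuousLinearMap.norm_id_le
      have := norm_add_le (1 : H →L[ℂ] H) h
      linarith
    · rw [hcm, norm_smul, hn2]
      have := norm_nonneg (D.cm h ξ)
      linarith
    · have h4 : ∑ j, ‖D.cm t (x j ξ)‖ ^ 2 = 4⁻¹ * ∑ j, ‖D.cm h (x j ξ)‖ ^ 2 := by
        rw [Finset.mul_sum]
        refine Finset.sum_congr rfl fun j _ => ?_
        rw [hcm, norm_smul, hn2]
        ring
      rw [h4]
      linarith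
  have haM : a ∈ M := by
    rw [hau]; exact M.toStarSubalgebra.smul_mem (add_mem huM (star_mem huM)) _
  have hbM : b ∈ M := by
    rw [hbu]; exact M.toStarSubalgebra.smul_mem (sub_mem huM (star_mem huM)) _
  have hn2 : ‖(2⁻¹ : ℂ)‖ = 2⁻¹ := by norm_num
  have hn3 : ‖(-(Complex.I * 2⁻¹) : ℂ)‖ = 2⁻¹ := by
    rw [norm_neg, norm_mul, Complex.norm_I, one_mul, hn2]
  have ha1 : ‖a‖ ≤ 1 := by
    rw [hau, norm_smul, hn2]
    have := norm_add_le u (star u)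
    linarith
  have hb1 : ‖b‖ ≤ 1 := by
    rw [hbu, norm_smul, hn3]
    have := norm_sub_le u (star u)
    linarith
  have hsub : ∀ (p q : H →L[ℂ] H) (ζ : H), D.cm (p - q) ζ = D.cm p ζ - D.cm q ζ := by
    intro p q ζ
    rw [sub_eq_add_neg, D.cm_add, ← neg_one_smul ℂ q, D.cm_smul]
    simp [sub_eq_add_neg]
  have had : ‖D.cm a ξ‖ ≤ δ := by
    rw [hau, D.cm_smul, D.cm_add, norm_smul, hn2]
    have h1 := norm_add_le (D.cm u ξ) (D.cm (star u) ξ)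
    rw [D.norm_cm_star_xi] at h1
    linarith
  have hbd : ‖D.cm b ξ‖ ≤ δ := by
    rw [hbu, D.cm_smul, hsub, norm_smul, hn3]
    have h1 := norm_sub_le (D.cm u ξ) (D.cm (star u) ξ)
    rw [D.norm_cm_star_xi] at h1
    linarith
  have hsum : ∑ j, ‖D.cm u (x j ξ)‖ ^ 2 ≤
      2 * ∑ j, ‖D.cm a (x j ξ)‖ ^ 2 + 2 * ∑ j, ‖D.cm b (x j ξ)‖ ^ 2 := by
    rw [Finset.mul_sum, Finset.mul_sum, ← Finset.sum_add_distrib]
    refine Finset.sum_le_sum fun j _ => ?_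
    have h1 : ‖D.cm u (x j ξ)‖ ≤ ‖D.cm a (x j ξ)‖ + ‖D.cm b (x j ξ)‖ := by
      conv_lhs => rw [hab]
      rw [D.cm_add, D.cm_smul]
      refine (norm_add_le _ _).trans ?_
      rw [norm_smul, Complex.norm_I, one_mul]
    have h2 : ‖D.cm u (x j ξ)‖ ^ 2 ≤ (‖D.cm a (x j ξ)‖ + ‖D.cm b (x j ξ)‖) ^ 2 :=
      pow_le_pow_left₀ (norm_nonneg _) h1 2
    nlinarith [sq_nonneg (‖D.cm a (x j ξ)‖ - ‖D.cm b (x j ξ)‖)]
  rcases le_total (tvar ξ x / 2 - 4 * ε) (∑ j, ‖D.cm a (x j ξ)‖ ^ 2) with h1 | h1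
  · exact key a haM ha ha1 had h1
  · exact key b hbM hb hb1 hbd (by linarith)

theorem cm_sub (p q : H →L[ℂ] H) (ζ : H) : D.cm (p - q) ζ = D.cm p ζ - D.cm q ζ := by
  rw [sub_eq_add_neg, D.cm_add, ← neg_one_smul ℂ q, D.cm_smul]
  simp [sub_eq_add_neg]

/-- **The core lemma.** -/
theorem exists_partition (hcore : ∀ x, D.InN x → ∃ c : ℂ, x = c • 1)
    {x : ι → H →L[ℂ] H} (hx : ∀ j, x j ∈ M) {ε : ℝ} (hε : 0 < ε) :
    ∃ (n : ℕ) (e : ℕ → H →L[ℂ] H), PU M n e ∧ ∑ l ∈ Finset.range n, ‖D.cm (e l) ξ‖ ^ 2 ≤ ε ∧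
      ∑ j, ∑ l ∈ Finset.range n, D.jw e (x j ξ) l l ≤
        ∑ j, ‖x j ξ‖ ^ 2 - tvar ξ x / 8 + ε := by
  set B : ℝ := ∑ j, ‖x j ξ‖ ^ 2 with hB
  have hB0 : 0 ≤ B := Finset.sum_nonneg fun j _ => by positivity
  set μ : ℝ := ε / (16 * (B + 1)) with hμ
  have hμ0 : 0 < μ := by positivity
  obtain ⟨δ, hδ, hcut⟩ := D.exists_spec_cut hμ0 hε
  obtain ⟨t, htM, ht0, ht1, htd, ht⟩ := D.exists_comm_pos hcore hx hδ (ε := ε / 2) (by positivity)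
  obtain ⟨n, e, c, hpu, hc, hg, hsm⟩ := hcut t htM ht0 ht1 htd
  refine ⟨n, e, hpu, hsm, ?_⟩
  set g : H →L[ℂ] H := ∑ l ∈ Finset.range n, (c l : ℂ) • e l with hgdef
  have hone : ∀ j, ∑ l ∈ Finset.range n, D.jw e (x j ξ) l l ≤
      ‖x j ξ‖ ^ 2 - ‖D.cm g (x j ξ)‖ ^ 2 := by
    intro j
    rw [D.norm_cm_op hpu c, D.norm_sq_jw hpu, ← Finset.sum_sub_distrib]
    refine Finset.sum_le_sum fun l hl => ?_
    rw [← Finset.sum_sub_distrib]
    have h1 : ∀ k ∈ Finset.range n, 0 ≤ D.jw e (x j ξ) l k -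
        (c l - c k) ^ 2 * D.jw e (x j ξ) l k := by
      intro k _
      have h2 : (c l - c k) ^ 2 ≤ 1 := by
        have h3 := hc l
        have h4 := hc k
        rw [sq_le_one_iff_abs_le_one, abs_le]
        constructor <;> linarith
      have h3 := mul_le_mul_of_nonneg_right h2 (D.jw_nonneg e (x j ξ) l k)
      linarith
    have h4 := Finset.single_le_sum h1 hl
    have h5 : (c l - c l) ^ 2 = 0 := by ring
    rw [h5, zero_mul, sub_zero] at h4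
    exact h4
  have hcm : ∀ j, ‖D.cm t (x j ξ)‖ ^ 2 - 8 * μ * ‖x j ξ‖ ^ 2 ≤ ‖D.cm g (x j ξ)‖ ^ 2 := by
    intro j
    set ζ : H := x j ξ with hζ
    have h1 : ‖D.cm t ζ‖ ≤ ‖D.cm g ζ‖ + 2 * μ * ‖ζ‖ := by
      have h2 : D.cm t ζ = D.cm g ζ + D.cm (t - g) ζ := by rw [D.cm_sub]; abel
      rw [h2]
      refine (norm_add_le _ _).trans (add_le_add le_rfl ((D.norm_cm_le _ _).trans ?_))
      gcongr
    have h3 : ‖D.cm t ζ‖ ≤ 2 * ‖ζ‖ := by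
      refine (D.norm_cm_le _ _).trans ?_
      have := norm_nonneg ζ
      nlinarith
    have h4 := norm_nonneg (D.cm t ζ)
    have h5 := norm_nonneg (D.cm g ζ)
    have h6 := norm_nonneg ζ
    rcases le_total (‖D.cm t ζ‖) (2 * μ * ‖ζ‖) with h7 | h7
    · have h8 : ‖D.cm t ζ‖ ^ 2 ≤ (2 * μ * ‖ζ‖) * (2 * ‖ζ‖) := by nlinarith
      have h9 : 0 ≤ ‖D.cm g ζ‖ ^ 2 := by positivity
      have h10 : 0 ≤ μ * ‖ζ‖ ^ 2 := by positivity
      nlinarith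
    · have h8 : (‖D.cm t ζ‖ - 2 * μ * ‖ζ‖) ^ 2 ≤ ‖D.cm g ζ‖ ^ 2 :=
        pow_le_pow_left₀ (by linarith) (by linarith) 2
      have h9 : 2 * (2 * μ * ‖ζ‖) * ‖D.cm t ζ‖ ≤ 2 * (2 * μ * ‖ζ‖) * (2 * ‖ζ‖) := by
        apply mul_le_mul_of_nonneg_left h3; positivity
      nlinarith [sq_nonneg (2 * μ * ‖ζ‖)]
  have h1 := Finset.sum_le_sum fun j (_ : j ∈ Finset.univ) => hone j
  have h2 := Finset.sum_le_sum fun j (_ : j ∈ Finset.univ) => hcm j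
  rw [Finset.sum_sub_distrib] at h1 h2
  rw [← Finset.mul_sum] at h2
  have h3 : 8 * μ * B ≤ ε / 2 := by
    calc 8 * μ * B ≤ 8 * μ * (B + 1) := by gcongr; linarith
      _ = ε / 2 := by rw [hμ]; field_simp; norm_num
  rw [← hB] at h1 h2
  linarith

end ModData

end Vale.Agent.P132
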