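import Vale.Agent.P132.Bd8.B6

/-!
# P132: spectral cuts of a selfadjoint element almost commuting with the vector
-/

open Filter Topology
open scoped ComplexConjugate InnerProductSpace BoundedContinuousFunction

namespace Vale.Agent.P132

universe u

variable {H : Type u} [NormedAddCommGroup H] [InnerProductSpace ℂ H] [CompleteSpace H]

/-- a finite partition of unity by projections of `M` -/
structure PU (M : VonNeumannAlgebra H) (n : ℕ) (e : ℕ → H →L[ℂ] H) : Prop where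
  pr : ∀ i, Cmp.IsPr M (e i)
  orth : ∀ i j, i ≠ j → e i * e j = 0
  sum : ∑ i ∈ Finset.range n, e i = 1

namespace PU

theorem norm_sq' {e : ℕ → H →L[ℂ] H} {n : ℕ} (hs : ∀ i, star (e i) = e i)
    (hi : ∀ i, e i * e i = e i) (hsum : ∑ i ∈ Finset.range n, e i = 1) (v : H) :
    ‖v‖ ^ 2 = ∑ i ∈ Finset.range n, ‖e i v‖ ^ 2 := by
  have h1 : ⟪v, v⟫_ℂ = ∑ i ∈ Finset.range n, ⟪v, e i v⟫_ℂ := by
    rw [← inner_sum]
    have h2 : ∑ i ∈ Finset.range n, e i v = (∑ i ∈ Finset.range n, e i) v := by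
      rw [sum_apply]
    rw [h2, hsum]
    rfl
  have h3 : ∀ i, ⟪v, e i v⟫_ℂ = ((‖e i v‖ ^ 2 : ℝ) : ℂ) := fun i => by
    rw [Cmp.inner_pr (hs i) (hi i)]; norm_cast
  simp only [h3] at h1
  rw [inner_self_eq_norm_sq_to_K] at h1
  have h4 : ((‖v‖ ^ 2 : ℝ) : ℂ) = ((∑ i ∈ Finset.range n, ‖e i v‖ ^ 2 : ℝ) : ℂ) := by
    push_cast
    push_cast at h1
    exact h1
  exact_mod_cast h4

variable {M : VonNeumannAlgebra H} {n : ℕ} {e : ℕ → H →L[ℂ] H}

theorem norm_sq (h : PU M n e) (v : H) : ‖v‖ ^ 2 = ∑ i ∈ Finset.range n, ‖e i v‖ ^ 2 :=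
  norm_sq' (fun i => (h.pr i).sa) (fun i => (h.pr i).idem) h.sum v

theorem mul_op (h : PU M n e) (c : ℕ → ℂ) {i : ℕ} (hi : i ∈ Finset.range n) :
    e i * ∑ j ∈ Finset.range n, c j • e j = c i • e i := by
  rw [Finset.mul_sum, Finset.sum_eq_single i]
  · rw [mul_smul_comm, (h.pr i).idem]
  · intro j _ hj
    rw [mul_smul_comm, h.orth i j (Ne.symm hj), smul_zero]
  · intro h0; exact absurd hi h0

theorem op_mul (h : PU M n e) (c : ℕ → ℂ) {i : ℕ} (hi : i ∈ Finset.range n) :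
    (∑ j ∈ Finset.range n, c j • e j) * e i = c i • e i := by
  rw [Finset.sum_mul, Finset.sum_eq_single i]
  · rw [smul_mul_assoc, (h.pr i).idem]
  · intro j _ hj
    rw [smul_mul_assoc, h.orth j i hj, smul_zero]
  · intro h0; exact absurd hi h0

theorem op_mem (h : PU M n e) (c : ℕ → ℂ) (s : Finset ℕ) : ∑ j ∈ s, c j • e j ∈ M :=
  sum_mem fun i _ => M.toStarSubalgebra.smul_mem (h.pr i).mem _

end PU

namespace ModData

variable {M : VonNeumannAlgebra H} {ξ : H} (D : ModData M ξ)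

theorem Rm_sa {e : H →L[ℂ] H} (h : star e = e) : star (D.Rm e) = D.Rm e := by
  rw [D.star_Rm, h]

theorem Rm_idem {e : H →L[ℂ] H} (h : e * e = e) : D.Rm e * D.Rm e = D.Rm e := by
  rw [← D.Rm_mul, h]

variable {D} in
theorem norm_sq_R {n : ℕ} {e : ℕ → H →L[ℂ] H} (h : PU M n e) (v : H) :
    ‖v‖ ^ 2 = ∑ i ∈ Finset.range n, ‖D.Rm (e i) v‖ ^ 2 := by
  refine PU.norm_sq' (fun i => D.Rm_sa (h.pr i).sa) (fun i => D.Rm_idem (h.pr i).idem) ?_ v
  rw [← D.Rm_sum, h.sum, D.Rm_one]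

/-- the joint distribution -/
noncomputable def jw (e : ℕ → H →L[ℂ] H) (v : H) (i k : ℕ) : ℝ := ‖e i (D.Rm (e k) v)‖ ^ 2

theorem jw_nonneg (e : ℕ → H →L[ℂ] H) (v : H) (i k : ℕ) : 0 ≤ D.jw e v i k := by
  unfold jw; positivity

theorem norm_sq_jw {n : ℕ} {e : ℕ → H →L[ℂ] H} (h : PU M n e) (v : H) :
    ‖v‖ ^ 2 = ∑ i ∈ Finset.range n, ∑ k ∈ Finset.range n, D.jw e v i k := by
  rw [h.norm_sq v]
  refine Finset.sum_congr rfl fun i _ => ?_
  rw [norm_sq_R (D := D) h (e i v)]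
  refine Finset.sum_congr rfl fun k _ => ?_
  rw [jw, D.comm_Rm (h.pr i).mem (h.pr k).mem]

/-- **F1**: commutators with combinations of the projections -/
theorem norm_cm_op {n : ℕ} {e : ℕ → H →L[ℂ] H} (h : PU M n e) (c : ℕ → ℝ) (v : H) :
    ‖D.cm (∑ j ∈ Finset.range n, (c j : ℂ) • e j) v‖ ^ 2 =
      ∑ i ∈ Finset.range n, ∑ k ∈ Finset.range n, (c i - c k) ^ 2 * D.jw e v i k := by
  set g : H →L[ℂ] H := ∑ j ∈ Finset.range n, (c j : ℂ) • e j with hg
  have hgM : g ∈ M := h.op_mem _ _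
  rw [h.norm_sq (D.cm g v)]
  refine Finset.sum_congr rfl fun i hi => ?_
  rw [norm_sq_R (D := D) h (e i (D.cm g v))]
  refine Finset.sum_congr rfl fun k hk => ?_
  have h1 : D.Rm (e k) (e i (g v)) = (c i : ℂ) • (e i (D.Rm (e k) v)) := by
    have h2 : e i (g v) = (c i : ℂ) • e i v := by
      have := congrArg (fun T : H →L[ℂ] H => T v) (h.mul_op (fun j => (c j : ℂ)) hi)
      exact this
    rw [h2, map_smul, D.comm_Rm (h.pr i).mem (h.pr k).mem]
  have h3 : D.Rm (e k) (e i (D.Rm g v)) = (c k : ℂ) • (e i (D.Rm (e k) v)) := by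
    have h4 : D.Rm (e k) (D.Rm g v) = (c k : ℂ) • D.Rm (e k) v := by
      have h5 : D.Rm (e k) * D.Rm g = (c k : ℂ) • D.Rm (e k) := by
        rw [← D.Rm_mul, h.op_mul (fun j => (c j : ℂ)) hk, D.Rm_smul]
      exact congrArg (fun T : H →L[ℂ] H => T v) h5
    rw [← D.comm_Rm (h.pr i).mem (h.pr k).mem, h4, map_smul]
  have h6 : D.Rm (e k) (e i (D.cm g v)) = ((c i - c k : ℝ) : ℂ) • (e i (D.Rm (e k) v)) := by
    rw [cm, map_sub, map_sub, h1, h3, ← sub_smul]
    push_cast
    rfl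
  rw [h6, norm_smul, mul_pow, Complex.norm_real, Real.norm_eq_abs, sq_abs, jw]

end ModData

/-- Hermite's identity for natural division -/
theorem sum_div_shift {m : ℕ} (hm : 0 < m) (k : ℕ) :
    ∑ a ∈ Finset.range m, (k + a) / m = k := by
  induction k with
  | zero =>
    refine Finset.sum_eq_zero fun a ha => ?_
    rw [zero_add]
    exact Nat.div_eq_of_lt (Finset.mem_range.1 ha)
  | succ k ih =>
    have h1 : ∑ a ∈ Finset.range m, (k + 1 + a) / m + k / m =
        ∑ a ∈ Finset.range m, (k + a) / m + (k + m) / m := by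
      have h2 := Finset.sum_range_succ (fun a => (k + a) / m) m
      have h3 := Finset.sum_range_succ' (fun a => (k + a) / m) m
      rw [h2] at h3
      simp only [add_zero] at h3
      rw [h3]
      congr 1
      refine Finset.sum_congr rfl fun a _ => ?_
      congr 1
      ring
    rw [ih, Nat.add_div_right k hm] at h1
    omega

theorem card_div_ne {m : ℕ} (hm : 0 < m) (i k : ℕ) :
    (∑ a ∈ Finset.range m, if (i + a) / m = (k + a) / m then (0 : ℝ) else 1) ≤
      ((i : ℝ) - k) ^ 2 := by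
  wlog hik : i ≤ k generalizing i k with H
  · have h1 := H k i (le_of_not_ge hik)
    have h2 : ((k : ℝ) - i) ^ 2 = ((i : ℝ) - k) ^ 2 := by ring
    rw [h2] at h1
    refine le_trans (le_of_eq (Finset.sum_congr rfl fun a _ => ?_)) h1
    simp only [eq_comm]
  have h1 : ∀ a, (if (i + a) / m = (k + a) / m then (0 : ℝ) else 1) ≤
      (((k + a) / m : ℕ) : ℝ) - (((i + a) / m : ℕ) : ℝ) := by
    intro a
    have h2 : (i + a) / m ≤ (k + a) / m := Nat.div_le_div_right (by omega)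
    split_ifs with h
    · rw [h]; simp
    · have h3 : (i + a) / m + 1 ≤ (k + a) / m := by omega
      have h4 : (((i + a) / m : ℕ) : ℝ) + 1 ≤ (((k + a) / m : ℕ) : ℝ) := by exact_mod_cast h3
      linarith
  refine (Finset.sum_le_sum fun a _ => h1 a).trans ?_
  rw [Finset.sum_sub_distrib]
  have h5 : ∑ a ∈ Finset.range m, (((k + a) / m : ℕ) : ℝ) = k := by
    exact_mod_cast sum_div_shift hm k
  have h6 : ∑ a ∈ Finset.range m, (((i + a) / m : ℕ) : ℝ) = i := by
    exact_mod_cast sum_div_shift hm i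
  rw [h5, h6]
  rcases Nat.eq_or_lt_of_le hik with h7 | h7
  · rw [h7]; simp
  · have h8 : (i : ℝ) + 1 ≤ k := by exact_mod_cast h7
    nlinarith

/-- range projection of a positive contraction -/
theorem exists_range_proj {M : VonNeumannAlgebra H} {d : H →L[ℂ] H} (hd : d ∈ M) :
    ∃ P, Cmp.IsPr M P ∧ P * d = d ∧ (∀ T : H →L[ℂ] H, T * d = d → T * P = P) ∧
      (d = 0 → P = 0) := by
  set E : Submodule ℂ H := (LinearMap.range (d : H →ₗ[ℂ] H)).topologicalClosure with hE
  have hEc : IsClosed (E : Set H) := Submodule.isClosed_topologicalClosure _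
  have hEa : Cmp.Aff M E := by
    refine Cmp.Aff.closure ?_
    rintro y hy _ ⟨x, rfl⟩
    exact ⟨y x, (Cmp.comm_apply hd hy x).symm⟩
  have : CompleteSpace E := hEc.completeSpace_coe
  have hfix : ∀ T : H →L[ℂ] H, T * d = d → T * E.starProjection = E.starProjection := by
    intro T hT
    have h1 : E ≤ Cmp.fix T := by
      refine Submodule.topologicalClosure_minimal _ ?_ (Cmp.isClosed_fix T)
      rintro _ ⟨y, rfl⟩
      rw [Cmp.mem_fix]
      exact congrArg (fun T : H →L[ℂ] H => T y) hT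
    ext y
    exact Cmp.mem_fix.1 (h1 (Submodule.starProjection_apply_mem E y))
  refine ⟨E.starProjection, ⟨hEa.proj_mem, (isSelfAdjoint_starProjection E).star_eq,
    E.isIdempotentElem_starProjection⟩, ?_, hfix, ?_⟩
  · ext y
    exact Submodule.starProjection_eq_self_iff.2 (Submodule.le_topologicalClosure _ ⟨y, rfl⟩)
  · intro h0
    have h1 := hfix 0 (by rw [h0, mul_zero])
    rw [zero_mul] at h1
    exact h1.symm

/-- nested projections cutting a positive operator -/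
theorem exists_cuts {M : VonNeumannAlgebra H} {t : H →L[ℂ] H} (ht : t ∈ M) (h0 : 0 ≤ t) {s : ℝ}
    (hs : 0 < s) {L : ℕ} (hL0 : 0 < L) (hL : ‖t‖ ≤ L * s) :
    ∃ T : ℕ → H →L[ℂ] H, (∀ j, Cmp.IsPr M (T j)) ∧ T 0 = 1 ∧ (∀ j, L ≤ j → T j = 0) ∧
      (∀ j, T j * T (j + 1) = T (j + 1)) ∧
      ∃ r ∈ M, ‖r‖ ≤ s ∧ t = (s : ℂ) • ∑ j ∈ Finset.range L, T (j + 1) + r := by
  have hsa : IsSelfAdjoint t := IsSelfAdjoint.of_nonneg h0
  have hspec : ∀ r ∈ spectrum ℝ t, 0 ≤ r ∧ r ≤ L * s := by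
    intro r hr
    refine ⟨spectrum_nonneg_of_nonneg h0 hr, ?_⟩
    rcases subsingleton_or_nontrivial (H →L[ℂ] H) with hB | hB
    · have := spectrum.of_subsingleton t (R := ℝ)
      rw [this] at hr
      exact absurd hr (Set.notMem_empty r)
    · have h3 : ‖r‖ ≤ ‖t‖ := spectrum.norm_le_norm_of_mem hr
      exact ((le_abs_self r).trans h3).trans hL
  let f : ℕ → H →L[ℂ] H := fun j => cfc (Lay.ramp (j * s) s) t
  have hfM : ∀ j, f j ∈ M := fun j => Lay.cfc_mem ht _
  have hfs : ∀ j, star (f j) = f j := fun j =>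
    (cfc_predicate (Lay.ramp (j * s) s) t : IsSelfAdjoint _).star_eq
  have hf0 : ∀ j, 0 ≤ f j := fun j => cfc_nonneg fun r _ => Lay.ramp_nonneg _ _ _
  have hf1 : ∀ j, f j ≤ 1 := fun j => cfc_le_one _ t fun r _ => Lay.ramp_le_one _ _ _
  have hff : ∀ j, f j * f (j + 1) = f (j + 1) := by
    intro j
    have h1 : f j * f (j + 1) = cfc (fun r => Lay.ramp (j * s) s r * Lay.ramp ((j + 1 : ℕ) * s) s r) t := by
      rw [cfc_mul (Lay.ramp (j * s) s) (Lay.ramp ((j + 1 : ℕ) * s) s) t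
        (Lay.ramp_cont _ _).continuousOn (Lay.ramp_cont _ _).continuousOn]
    rw [h1]
    show _ = cfc (Lay.ramp ((j + 1 : ℕ) * s) s) t
    congr 1
    funext r
    rcases le_total r ((j + 1 : ℕ) * s) with h | h
    · rw [Lay.ramp_zero hs h, mul_zero]
    · rw [Lay.ramp_one hs (by push_cast at h; linarith : (j : ℝ) * s + s ≤ r), one_mul]
  have hfz : ∀ j, L ≤ j → f j = 0 := by
    intro j hj
    show cfc (Lay.ramp (j * s) s) t = 0
    rw [cfc_congr (g := fun _ => (0 : ℝ))]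
    · simp
    · intro r hr
      refine Lay.ramp_zero hs ((hspec r hr).2.trans ?_)
      have : (L : ℝ) ≤ j := by exact_mod_cast hj
      gcongr
  have hsum : t = (s : ℂ) • ∑ j ∈ Finset.range L, f j := by
    conv_lhs => rw [← cfc_id' ℝ t]
    rw [Finset.smul_sum]
    have h2 : ∀ j : ℕ, (s : ℂ) • f j = cfc (fun r => s * Lay.ramp (j * s) s r) t := by
      intro j
      rw [cfc_const_mul s _ t (Lay.ramp_cont _ _).continuousOn]
      rfl
    simp only [h2]
    rw [← cfc_sum (fun (j : ℕ) (r : ℝ) => s * Lay.ramp (j * s) s r) t (Finset.range L)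
      (fun j _ => ((Lay.ramp_cont _ _).const_mul s).continuousOn)]
    refine cfc_congr fun r hr => ?_
    show r = (∑ j ∈ Finset.range L, fun r : ℝ => s * Lay.ramp (j * s) s r) r
    rw [Finset.sum_apply, Lay.ramp_sum hs (hspec r hr).1, min_eq_left (hspec r hr).2]
  choose P hP hPf hPT hPz using fun j => exists_range_proj (hfM j)
  have hle1 : ∀ j, P (j + 1) ≤ f j := fun j =>
    Lay.le_of_mul_eq (hP _).sa (hP _).idem (hf0 j) (hPT (j + 1) (f j) (hff j))
  have hle2 : ∀ j, f j ≤ P j := fun j =>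
    Lay.le_of_mul_eq' (hP _).sa (hP _).idem (hfs j) (hf1 j) (hPf j)
  refine ⟨fun j => if j = 0 then 1 else P j, fun j => ?_, by simp, fun j hj => ?_, fun j => ?_,
    t - (s : ℂ) • ∑ j ∈ Finset.range L, P (j + 1), ?_, ?_, ?_⟩
  · by_cases h : j = 0
    · simp only [h, if_true]
      exact ⟨one_mem M, star_one _, one_mul 1⟩
    · simp only [h, if_false]
      exact hP j
  · have h : j ≠ 0 := by omega
    simp only [h, if_false]
    exact hPz j (hfz j hj)
  · by_cases h : j = 0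
    · simp [h]
    · simp only [h, if_false, Nat.succ_ne_zero]
      have h1 : P j * f j = f j := hPf j
      have h2 : f j * P (j + 1) = P (j + 1) := hPT (j + 1) (f j) (hff j)
      calc P j * P (j + 1) = P j * (f j * P (j + 1)) := by rw [h2]
        _ = P j * f j * P (j + 1) := by rw [mul_assoc]
        _ = P (j + 1) := by rw [h1, h2]
  · exact sub_mem ht (M.toStarSubalgebra.smul_mem (sum_mem fun j _ => (hP _).mem) _)
  · have e1 : t - (s : ℂ) • ∑ j ∈ Finset.range L, P (j + 1) =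
        s • ∑ j ∈ Finset.range L, (f j - P (j + 1)) := by
      conv_lhs => rw [hsum]
      rw [Finset.sum_sub_distrib, smul_sub]
      rfl
    rw [e1]
    have e2 : 0 ≤ s • ∑ j ∈ Finset.range L, (f j - P (j + 1)) :=
      smul_nonneg hs.le (Finset.sum_nonneg fun j _ => sub_nonneg.2 (hle1 j))
    rw [CStarAlgebra.norm_le_iff_le_algebraMap _ hs.le e2]
    have e3 : ∑ j ∈ Finset.range L, (f j - P (j + 1)) ≤ 1 := by
      have e4 : ∑ j ∈ Finset.range L, (f j - P (j + 1)) ≤
          ∑ j ∈ Finset.range L, (f j - f (j + 1)) :=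
        Finset.sum_le_sum fun j _ => sub_le_sub_left (hle2 (j + 1)) _
      rw [Finset.sum_range_sub', hfz L le_rfl, sub_zero] at e4
      exact e4.trans (hf1 0)
    rw [Algebra.algebraMap_eq_smul_one]
    exact smul_le_smul_of_nonneg_left e3 hs.le
  · simp

namespace PU

variable {M : VonNeumannAlgebra H} {n : ℕ} {e : ℕ → H →L[ℂ] H}

theorem op_mul_op (h : PU M n e) (c c' : ℕ → ℂ) :
    (∑ j ∈ Finset.range n, c j • e j) * (∑ j ∈ Finset.range n, c' j • e j) =
      ∑ j ∈ Finset.range n, (c j * c' j) • e j := by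
  rw [Finset.sum_mul]
  refine Finset.sum_congr rfl fun i hi => ?_
  rw [smul_mul_assoc, h.mul_op c' hi, smul_smul]

theorem norm_op_le (h : PU M n e) (c : ℕ → ℝ) {C : ℝ} (hC : 0 ≤ C)
    (hc : ∀ i ∈ Finset.range n, |c i| ≤ C) : ‖∑ j ∈ Finset.range n, (c j : ℂ) • e j‖ ≤ C := by
  refine ContinuousLinearMap.opNorm_le_bound _ hC fun v => ?_
  have h1 : ‖(∑ j ∈ Finset.range n, (c j : ℂ) • e j) v‖ ^ 2 ≤ (C * ‖v‖) ^ 2 := by
    rw [h.norm_sq, mul_pow, h.norm_sq v, Finset.mul_sum]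
    refine Finset.sum_le_sum fun i hi => ?_
    have h2 : e i ((∑ j ∈ Finset.range n, (c j : ℂ) • e j) v) = (c i : ℂ) • e i v :=
      congrArg (fun T : H →L[ℂ] H => T v) (h.mul_op (fun j => (c j : ℂ)) hi)
    rw [h2, norm_smul, mul_pow, Complex.norm_real, Real.norm_eq_abs]
    have h3 := hc i hi
    gcongr
  exact (pow_le_pow_iff_left₀ (norm_nonneg _) (by positivity) two_ne_zero).1 h1

/-- coarsening along a map of the indices -/
theorem coarsen (h : PU M n e) (f : ℕ → ℕ) (hf : ∀ i < n, f i < n) :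
    PU M n (fun l => ∑ i ∈ Finset.range n, ((if f i = l then (1 : ℝ) else 0 : ℝ) : ℂ) • e i) where
  pr := fun l => by
    refine ⟨h.op_mem _ _, ?_, ?_⟩
    · rw [star_sum]
      refine Finset.sum_congr rfl fun i _ => ?_
      rw [star_smul, (h.pr i).sa]
      congr 1
      simp
    · rw [h.op_mul_op]
      refine Finset.sum_congr rfl fun i _ => ?_
      congr 1
      split_ifs <;> simp
  orth := fun l l' hl => by
    rw [h.op_mul_op]
    refine Finset.sum_eq_zero fun i _ => ?_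
    by_cases h1 : f i = l
    · have h2 : f i ≠ l' := fun h3 => hl (h1.symm.trans h3)
      simp [h2]
    · simp [h1]
  sum := by
    rw [Finset.sum_comm, ← h.sum]
    refine Finset.sum_congr rfl fun i hi => ?_
    rw [← Finset.sum_smul, Finset.sum_eq_single (f i)]
    · simp
    · intro l _ hl
      simp [hl.symm]
    · intro h1
      exact absurd (Finset.mem_range.2 (hf i (Finset.mem_range.1 hi))) h1

omit [CompleteSpace H] in
theorem coarsen_sum (f : ℕ → ℕ) (hf : ∀ i < n, f i < n) (c : ℕ → ℝ) :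
    ∑ l ∈ Finset.range n, (c l : ℂ) •
      (∑ i ∈ Finset.range n, ((if f i = l then (1 : ℝ) else 0 : ℝ) : ℂ) • e i) =
    ∑ i ∈ Finset.range n, (c (f i) : ℂ) • e i := by
  simp only [Finset.smul_sum, smul_smul]
  rw [Finset.sum_comm]
  refine Finset.sum_congr rfl fun i hi => ?_
  rw [← Finset.sum_smul, Finset.sum_eq_single (f i)]
  · simp
  · intro l _ hl
    simp [hl.symm]
  · intro h1
    exact absurd (Finset.mem_range.2 (hf i (Finset.mem_range.1 hi))) h1

end PU

omit [CompleteSpace H] in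
theorem nested_mul {T : ℕ → H →L[ℂ] H} (hid : ∀ j, T j * T j = T j)
    (hT : ∀ j, T j * T (j + 1) = T (j + 1)) {i j : ℕ} (hij : i ≤ j) : T i * T j = T j := by
  induction j, hij using Nat.le_induction with
  | base => exact hid i
  | succ j _ ih => rw [← hT j, ← mul_assoc, ih]

theorem nested_pu {M : VonNeumannAlgebra H} {T : ℕ → H →L[ℂ] H} (hpr : ∀ j, Cmp.IsPr M (T j))
    (h0 : T 0 = 1) {L : ℕ} (hL : ∀ j, L ≤ j → T j = 0)
    (hT : ∀ j, T j * T (j + 1) = T (j + 1)) : PU M L (fun i => T i - T (i + 1)) := by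
  have hn : ∀ {i j : ℕ}, i ≤ j → T i * T j = T j := fun h => nested_mul (fun j => (hpr j).idem) hT h
  have hn' : ∀ {i j : ℕ}, i ≤ j → T j * T i = T j := by
    intro i j h
    have := congrArg star (hn h)
    rwa [star_mul, (hpr i).sa, (hpr j).sa] at this
  refine ⟨fun i => ⟨sub_mem (hpr _).mem (hpr _).mem, ?_, ?_⟩, ?_, ?_⟩
  · rw [star_sub, (hpr _).sa, (hpr _).sa]
  · rw [sub_mul, mul_sub, mul_sub, (hpr _).idem, (hpr _).idem, hn (Nat.le_succ i),
      hn' (Nat.le_succ i)]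
    abel
  · intro i j hij
    rcases lt_or_gt_of_ne hij with h | h
    · rw [sub_mul, mul_sub, mul_sub, hn (by omega : i ≤ j), hn (by omega : i ≤ j + 1),
        hn (by omega : i + 1 ≤ j), hn (by omega : i + 1 ≤ j + 1)]
      abel
    · rw [sub_mul, mul_sub, mul_sub, hn' (by omega : j ≤ i), hn' (by omega : j + 1 ≤ i),
        hn' (by omega : j ≤ i + 1), hn' (by omega : j + 1 ≤ i + 1)]
      abel
  · rw [Finset.sum_range_sub', h0, hL L le_rfl, sub_zero]

omit [CompleteSpace H] in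
theorem abel_cuts (T : ℕ → H →L[ℂ] H) (L : ℕ) :
    ∑ j ∈ Finset.range L, T (j + 1) =
      ∑ i ∈ Finset.range L, (((i : ℝ) : ℂ)) • (T i - T (i + 1)) + (((L : ℝ) : ℂ)) • T L := by
  induction L with
  | zero => simp
  | succ L ih =>
    rw [Finset.sum_range_succ, Finset.sum_range_succ, ih]
    push_cast
    module

theorem sum_ind_sq (n i k : ℕ) : ∑ l ∈ Finset.range n,
    ((if i = l then (1 : ℝ) else 0) - (if k = l then (1 : ℝ) else 0)) ^ 2 ≤
      2 * (if i = k then (0 : ℝ) else 1) := by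
  by_cases h : i = k
  · simp [h]
  · simp only [h, if_false, mul_one]
    have h1 : ∀ l, ((if i = l then (1 : ℝ) else 0) - (if k = l then (1 : ℝ) else 0)) ^ 2 ≤
        (if i = l then (1 : ℝ) else 0) + (if k = l then (1 : ℝ) else 0) := by
      intro l
      split_ifs <;> norm_num
    refine (Finset.sum_le_sum fun l _ => h1 l).trans ?_
    rw [Finset.sum_add_distrib]
    have h2 : ∀ j : ℕ, ∑ l ∈ Finset.range n, (if j = l then (1 : ℝ) else 0) ≤ 1 := by
      intro j
      rw [Finset.sum_ite_eq]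
      split_ifs <;> norm_num
    linarith [h2 i, h2 k]

namespace ModData

variable {M : VonNeumannAlgebra H} {ξ : H} (D : ModData M ξ)

theorem norm_cm_le (a : H →L[ℂ] H) (ζ : H) : ‖D.cm a ζ‖ ≤ 2 * ‖a‖ * ‖ζ‖ := by
  rw [cm]
  refine (norm_sub_le _ _).trans ?_
  have h1 := a.le_opNorm ζ
  have h2 := ((D.Rm a).le_opNorm ζ).trans
    (mul_le_mul_of_nonneg_right (D.norm_Rm_le a) (norm_nonneg ζ))
  linarith

/-- **Spectral cuts.** -/
theorem exists_spec_cut {μ η : ℝ} (hμ : 0 < μ) (hη : 0 < η) :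
    ∃ δ > 0, ∀ t ∈ M, 0 ≤ t → ‖t‖ ≤ 1 → ‖D.cm t ξ‖ ≤ δ →
      ∃ (n : ℕ) (e : ℕ → H →L[ℂ] H) (c : ℕ → ℝ), PU M n e ∧ (∀ l, 0 ≤ c l ∧ c l ≤ 1) ∧
        ‖t - ∑ l ∈ Finset.range n, (c l : ℂ) • e l‖ ≤ μ ∧
        ∑ l ∈ Finset.range n, ‖D.cm (e l) ξ‖ ^ 2 ≤ η := by
  obtain ⟨m, hm⟩ := exists_nat_gt (18 / η)
  have hm0 : (0 : ℝ) < m := lt_trans (by positivity) hm
  have hmN : 0 < m := by exact_mod_cast hm0
  have hmη : 18 / m ≤ η := by
    rw [div_le_iff₀ hm0]
    rw [div_lt_iff₀ hη] at hm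
    linarith
  set s : ℝ := μ / (m + 1) with hs
  have hs0 : 0 < s := by positivity
  have hsμ : s * (m + 1) = μ := by rw [hs]; field_simp
  set L : ℕ := ⌈1 / s⌉₊ with hL
  have hL1 : 1 / s ≤ L := Nat.le_ceil _
  have hL2 : (L : ℝ) < 1 / s + 1 := Nat.ceil_lt_add_one (by positivity)
  have hLs : 1 ≤ L * s := by
    rwa [div_le_iff₀ hs0] at hL1
  have hLs' : L * s < 1 + s := by
    have : (L : ℝ) * s < (1 / s + 1) * s := by gcongr
    have e : (1 / s + 1) * s = 1 + s := by field_simp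
    linarith
  have hLN : 0 < L := by
    rcases Nat.eq_zero_or_pos L with h | h
    · rw [h] at hLs; simp at hLs; linarith
    · exact h
  refine ⟨s, hs0, fun t ht h0 h1 hcm => ?_⟩
  obtain ⟨T, hpr, hT0, hTL, hTn, r, hrM, hr, htr⟩ := exists_cuts ht h0 hs0 hLN (h1.trans hLs)
  have hpu := nested_pu hpr hT0 hTL hTn
  set e : ℕ → H →L[ℂ] H := fun i => T i - T (i + 1) with he
  set A : H →L[ℂ] H := ∑ i ∈ Finset.range L, (((i : ℝ) : ℂ)) • e i with hA
  have hAT : ∑ j ∈ Finset.range L, T (j + 1) = A := by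
    rw [abel_cuts, hTL L le_rfl, smul_zero, add_zero]
  rw [hAT] at htr
  -- the commutator with `A`
  have hcA : ‖D.cm A ξ‖ ≤ 3 := by
    have h2 : (s : ℂ) • D.cm A ξ = D.cm t ξ - D.cm r ξ := by
      rw [← D.cm_smul, htr, D.cm_add]
      abel
    have h3 : s * ‖D.cm A ξ‖ ≤ s * 3 := by
      calc s * ‖D.cm A ξ‖ = ‖(s : ℂ) • D.cm A ξ‖ := by
            rw [norm_smul, Complex.norm_real, Real.norm_of_nonneg hs0.le]
        _ ≤ ‖D.cm t ξ‖ + ‖D.cm r ξ‖ := by rw [h2]; exact norm_sub_le _ _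
        _ ≤ s + 2 * s * 1 := by
            refine add_le_add hcm ((D.norm_cm_le r ξ).trans ?_)
            rw [D.norm_xi]
            gcongr
        _ = s * 3 := by ring
    exact le_of_mul_le_mul_left h3 hs0
  have hS : ∑ i ∈ Finset.range L, ∑ k ∈ Finset.range L, ((i : ℝ) - k) ^ 2 * D.jw e ξ i k ≤ 9 := by
    have h2 := D.norm_cm_op hpu (fun i => (i : ℝ)) ξ
    rw [← h2]
    have h3 : ‖D.cm A ξ‖ ^ 2 ≤ 3 ^ 2 := pow_le_pow_left₀ (norm_nonneg _) hcA 2
    calc _ ≤ (3 : ℝ) ^ 2 := h3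
      _ = 9 := by norm_num
  -- the pigeonhole
  obtain ⟨a, ham, ha⟩ : ∃ a ∈ Finset.range m, ∑ i ∈ Finset.range L, ∑ k ∈ Finset.range L,
      (if (i + a) / m = (k + a) / m then (0 : ℝ) else 1) * D.jw e ξ i k ≤ 9 / m := by
    refine Finset.exists_le_of_sum_le ⟨0, Finset.mem_range.2 hmN⟩ ?_
    rw [Finset.sum_const, Finset.card_range, nsmul_eq_mul, mul_div_cancel₀ _ hm0.ne']
    refine le_trans ?_ hS
    rw [Finset.sum_comm]
    refine Finset.sum_le_sum fun i _ => ?_
    rw [Finset.sum_comm]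
    refine Finset.sum_le_sum fun k _ => ?_
    rw [← Finset.sum_mul]
    exact mul_le_mul_of_nonneg_right (card_div_ne hmN i k) (D.jw_nonneg e ξ i k)
  set f : ℕ → ℕ := fun i => (i + a) / m with hf
  have ham' : a < m := Finset.mem_range.1 ham
  have hfL : ∀ i < L, f i < L := by
    intro i hi
    have h2 : (i + a) / m ≤ i := by
      have h3 : i + a < m * (i + 1) := by nlinarith
      have := (Nat.div_lt_iff_lt_mul hmN).2 (by rw [mul_comm]; exact h3 : i + a < (i + 1) * m)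
      omega
    exact lt_of_le_of_lt h2 hi
  have hq := hpu.coarsen f hfL
  set q : ℕ → H →L[ℂ] H := fun l =>
    ∑ i ∈ Finset.range L, ((if f i = l then (1 : ℝ) else 0 : ℝ) : ℂ) • e i with hqdef
  set c : ℕ → ℝ := fun l => max 0 (min 1 (s * (m * l - a))) with hc
  refine ⟨L, q, c, hq, fun l => ⟨le_max_left _ _, max_le zero_le_one (min_le_left _ _)⟩, ?_, ?_⟩
  · rw [hqdef]
    rw [PU.coarsen_sum f hfL c]
    have h2 : t - ∑ i ∈ Finset.range L, (c (f i) : ℂ) • e i =
        ∑ i ∈ Finset.range L, ((s * i - c (f i) : ℝ) : ℂ) • e i + r := by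
      have h3 : t = (s : ℂ) • A + r := htr
      rw [h3, hA, Finset.smul_sum]
      have h4 : ∀ i : ℕ, ((s * i - c (f i) : ℝ) : ℂ) • e i =
          (s : ℂ) • (((i : ℝ) : ℂ) • e i) - (c (f i) : ℂ) • e i := by
        intro i
        push_cast
        module
      simp only [h4, Finset.sum_sub_distrib]
      abel
    rw [h2]
    refine (norm_add_le _ _).trans ?_
    have h5 : ‖∑ i ∈ Finset.range L, ((s * i - c (f i) : ℝ) : ℂ) • e i‖ ≤ s * m := by
      refine hpu.norm_op_le (fun i => s * i - c (f i)) (by positivity) fun i hi => ?_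
      have hiL : i < L := Finset.mem_range.1 hi
      have h6 : m * f i ≤ i + a := Nat.mul_div_le _ _
      have h7 : i + a < m * f i + m := by
        have := Nat.lt_mul_div_succ (i + a) hmN
        have e : m * ((i + a) / m + 1) = m * f i + m := by rw [hf]; ring
        omega
      have h8 : (m : ℝ) * f i ≤ i + a := by exact_mod_cast h6
      have h9 : (i : ℝ) + a ≤ m * f i + m := by exact_mod_cast h7.le
      have h10 : s * i ≤ 1 := by
        have h11 : (i : ℝ) + 1 ≤ L := by exact_mod_cast hiL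
        nlinarith
      have h12 : 0 ≤ s * (i : ℝ) := by positivity
      have h13 : s * (m * (f i : ℝ) - a) ≤ s * i := by
        apply mul_le_mul_of_nonneg_left _ hs0.le; linarith
      have h14 : s * i - s * m ≤ s * (m * (f i : ℝ) - a) := by
        rw [← mul_sub]; apply mul_le_mul_of_nonneg_left _ hs0.le; linarith
      have hsm : 0 ≤ s * m := by positivity
      show |s * (i : ℝ) - max 0 (min 1 (s * (m * (f i : ℝ) - a)))| ≤ s * m
      rw [abs_le]
      constructor
      · have : max 0 (min 1 (s * (m * (f i : ℝ) - a))) ≤ s * i :=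
          max_le h12 ((min_le_right _ _).trans h13)
        linarith
      · rcases le_total (s * (m * (f i : ℝ) - a)) 1 with h15 | h15
        · rw [min_eq_right h15]
          have := le_max_right 0 (s * (m * (f i : ℝ) - a))
          linarith
        · rw [min_eq_left h15, max_eq_right zero_le_one]
          linarith
    calc _ ≤ s * m + s := add_le_add h5 hr
      _ = μ := by rw [← hsμ]; ring
  · have h2 : ∀ l, ‖D.cm (q l) ξ‖ ^ 2 = ∑ i ∈ Finset.range L, ∑ k ∈ Finset.range L,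
        ((if f i = l then (1 : ℝ) else 0) - (if f k = l then (1 : ℝ) else 0)) ^ 2 *
          D.jw e ξ i k := fun l =>
      D.norm_cm_op hpu (fun i => if f i = l then (1 : ℝ) else 0) ξ
    simp only [h2]
    rw [Finset.sum_comm]
    have h3 : ∀ i ∈ Finset.range L, ∑ l ∈ Finset.range L, ∑ k ∈ Finset.range L,
        ((if f i = l then (1 : ℝ) else 0) - (if f k = l then (1 : ℝ) else 0)) ^ 2 *
          D.jw e ξ i k ≤ ∑ k ∈ Finset.range L,
          2 * ((if f i = f k then (0 : ℝ) else 1) * D.jw e ξ i k) := by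
      intro i _
      rw [Finset.sum_comm]
      refine Finset.sum_le_sum fun k _ => ?_
      rw [← Finset.sum_mul, ← mul_assoc]
      exact mul_le_mul_of_nonneg_right (sum_ind_sq L (f i) (f k)) (D.jw_nonneg e ξ i k)
    refine (Finset.sum_le_sum h3).trans ?_
    simp only [← Finset.mul_sum]
    calc _ ≤ 2 * (9 / (m : ℝ)) := by
          apply mul_le_mul_of_nonneg_left ha (by norm_num)
      _ = 18 / m := by ring
      _ ≤ η := hmη

end ModData

end Vale.Agent.P132
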