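import Vale.Agent.P132.WeightDefs

/-!
# P132: centralizers and maximal abelian subalgebras
-/

namespace Vale.Agent.P132

universe u

variable {H : Type u} [NormedAddCommGroup H] [InnerProductSpace ℂ H] [CompleteSpace H]

/-- The centralizer `M_ψ = {a ∈ M : ψ(a y) = ψ(y a) for all y ∈ M}` of `ψ`. -/
def stateCentralizer (M : VonNeumannAlgebra H) (ψ : (H →L[ℂ] H) → ℂ) : Set (H →L[ℂ] H) :=
  {a | a ∈ M ∧ ∀ y ∈ M, ψ (a * y) = ψ (y * a)}

/-- `A` is a maximal abelian subalgebra of `M`: `A ⊆ M` and `A' ∩ M = A`. -/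
def IsMasa (M A : VonNeumannAlgebra H) : Prop :=
  (∀ a ∈ A, a ∈ M) ∧ ∀ x ∈ M, (∀ a ∈ A, a * x = x * a) ↔ x ∈ A

end Vale.Agent.P132
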