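import Vale.Agent.P132.M723.Main
import Vale.Agent.P132.M723.Defs

/-!
# P132: all normal states are approximated
-/

open Filter Topology
open scoped ComplexConjugate InnerProductSpace

namespace Vale.Agent.P132

universe u

variable {H : Type u} [NormedAddCommGroup H] [InnerProductSpace ℂ H] [CompleteSpace H]

theorem NPF.normal {M : VonNeumannAlgebra H} {θ : (H →L[ℂ] H) → ℂ} {m : ℝ} (h : NPF M θ m)
    (h1 : θ 1 = 1) : IsNormalState M θ := by
  obtain ⟨η, s, h2, -, h3⟩ := h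
  have h4 := h3 1 (one_mem M)
  have h5 : HasSum (fun i => ((‖η i‖ ^ 2 : ℝ) : ℂ)) ((s : ℝ) : ℂ) :=
    Complex.hasSum_ofReal.2 h2
  have e : (fun i => ⟪η i, (1 : H →L[ℂ] H) (η i)⟫_ℂ) = fun i => ((‖η i‖ ^ 2 : ℝ) : ℂ) := by
    funext i
    show ⟪η i, η i⟫_ℂ = _
    rw [inner_self_eq_norm_sq_to_K]
    push_cast
    rfl
  rw [e] at h4
  have h6 := h5.unique h4
  rw [h1] at h6
  have h7 : s = 1 := by exact_mod_cast h6
  rw [h7] at h2
  exact ⟨η, h2, h3⟩

/-- a faithful normal state -/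
theorem exists_faithful [TopologicalSpace.SeparableSpace H] [Nontrivial H]
    (M : VonNeumannAlgebra H) :
    ∃ χ : (H →L[ℂ] H) → ℂ, IsNormalState M χ ∧ IsFaithful M χ := by
  set d := TopologicalSpace.denseSeq H with hd
  set a : ℕ → ℝ := fun i => (1 / 2 : ℝ) ^ i / (1 + ‖d i‖) with ha
  have ha0 : ∀ i, 0 < a i := fun i => by positivity
  set g : ℕ → H := fun i => ((a i : ℝ) : ℂ) • d i with hg
  have hgn : ∀ i, ‖g i‖ ≤ (1 / 2 : ℝ) ^ i := by
    intro i
    show ‖((a i : ℝ) : ℂ) • d i‖ ≤ _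
    rw [norm_smul, Complex.norm_real, Real.norm_of_nonneg (ha0 i).le]
    show (1 / 2 : ℝ) ^ i / (1 + ‖d i‖) * ‖d i‖ ≤ _
    rw [div_mul_eq_mul_div, div_le_iff₀ (by positivity)]
    have : (0 : ℝ) < (1 / 2) ^ i := by positivity
    nlinarith [norm_nonneg (d i)]
  have hsum : Summable fun i => ‖g i‖ ^ 2 := by
    refine Summable.of_nonneg_of_le (fun i => by positivity) (fun i => ?_)
      (summable_geometric_of_lt_one (r := (1 / 4 : ℝ)) (by norm_num) (by norm_num))
    calc ‖g i‖ ^ 2 ≤ ((1 / 2 : ℝ) ^ i) ^ 2 := pow_le_pow_left₀ (norm_nonneg _) (hgn i) 2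
      _ = (1 / 4 : ℝ) ^ i := by rw [← pow_mul, mul_comm, pow_mul]; norm_num
  obtain ⟨s, hs⟩ := hsum
  have hdense : ∀ x : H →L[ℂ] H, (∀ i, x (g i) = 0) → x = 0 := by
    intro x hx
    have h1 : ∀ i, x (d i) = 0 := by
      intro i
      have h2 := hx i
      rw [show g i = ((a i : ℝ) : ℂ) • d i from rfl, map_smul] at h2
      rcases smul_eq_zero.1 h2 with h3 | h3
      · exact absurd (Complex.ofReal_eq_zero.1 h3) (ha0 i).ne'
      · exact h3
    ext ζ
    have h2 : (x : H → H) = fun _ => 0 :=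
      Continuous.ext_on (TopologicalSpace.denseRange_denseSeq H) x.continuous continuous_const
        (by rintro _ ⟨i, rfl⟩; exact h1 i)
    exact congrFun h2 ζ
  have hs0 : 0 < s := by
    rcases (hs.nonneg fun i => by positivity).lt_or_eq with h1 | h1
    · exact h1
    · exfalso
      rw [← h1, hasSum_zero_iff_of_nonneg fun i => by positivity] at hs
      have h2 : (1 : H →L[ℂ] H) = 0 := by
        apply hdense
        intro i
        have h3 := congrFun hs i
        have h4 : ‖g i‖ ^ 2 = 0 := h3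
        show g i = 0
        exact norm_eq_zero.1 ((pow_eq_zero_iff two_ne_zero).1 h4)
      obtain ⟨v, hv⟩ := exists_ne (0 : H)
      exact hv (congrArg (fun T : H →L[ℂ] H => T v) h2)
  set c : ℝ := Real.sqrt s⁻¹ with hc
  have hc0 : 0 < c := Real.sqrt_pos.2 (by positivity)
  have hcc : c ^ 2 = s⁻¹ := Real.sq_sqrt (by positivity)
  set η : ℕ → H := fun i => ((c : ℝ) : ℂ) • g i with hη
  have hη1 : HasSum (fun i => ‖η i‖ ^ 2) 1 := by
    have h1 := hs.mul_left (s⁻¹)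
    rw [inv_mul_cancel₀ hs0.ne'] at h1
    have e : (fun i => ‖η i‖ ^ 2) = fun i => s⁻¹ * ‖g i‖ ^ 2 := by
      funext i
      show ‖((c : ℝ) : ℂ) • g i‖ ^ 2 = _
      rw [norm_smul, mul_pow, Complex.norm_real, Real.norm_of_nonneg hc0.le, hcc]
    rw [e]
    exact h1
  have hηs : ∀ x : H →L[ℂ] H, Summable fun i => ⟪η i, x (η i)⟫_ℂ := by
    intro x
    refine Summable.of_norm_bounded (g := fun i => ‖x‖ * ‖η i‖ ^ 2)
      (hη1.summable.mul_left _) fun i => ?_
    refine (norm_inner_le_norm _ _).trans ?_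
    have := x.le_opNorm (η i)
    have h2 := norm_nonneg (η i)
    nlinarith
  refine ⟨fun x => ∑' i, ⟪η i, x (η i)⟫_ℂ, ⟨η, hη1, fun x _ => (hηs x).hasSum⟩, ?_⟩
  intro x hx h0
  apply hdense
  intro i
  have h1 : HasSum (fun i => ‖x (η i)‖ ^ 2) 0 := by
    have h2 := Complex.reCLM.hasSum (hηs (star x * x)).hasSum
    rw [show (∑' i, ⟪η i, (star x * x) (η i)⟫_ℂ) = 0 from h0] at h2
    simp only [Complex.reCLM_apply, Cmp.inner_star_mul_self] at h2
    simpa [← Complex.ofReal_pow] using h2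
  rw [hasSum_zero_iff_of_nonneg fun i => by positivity] at h1
  have h3 : ‖x (η i)‖ ^ 2 = 0 := congrFun h1 i
  have h4 : x (η i) = 0 := norm_eq_zero.1 ((pow_eq_zero_iff two_ne_zero).1 h3)
  rw [show η i = ((c : ℝ) : ℂ) • g i from rfl, map_smul] at h4
  rcases smul_eq_zero.1 h4 with h5 | h5
  · exact absurd (Complex.ofReal_eq_zero.1 h5) hc0.ne'
  · exact h5

/-- **Density.** -/
theorem masa_dense [TopologicalSpace.SeparableSpace H] {M : VonNeumannAlgebra H}
    (hM : IsTypeIIIOneFactor M) {φ : (H →L[ℂ] H) → ℂ} (hφ : IsNormalState M φ)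
    {ε : ℝ} (hε : 0 < ε) :
    ∃ ψ : (H →L[ℂ] H) → ℂ, IsNormalState M ψ ∧ IsFaithful M ψ ∧
      (∀ y ∈ M, ‖ψ y - φ y‖ ≤ ε * ‖y‖) ∧
      ∃ A : VonNeumannAlgebra H, IsMasa M A ∧ ∀ a ∈ A, a ∈ stateCentralizer M ψ := by
  have : Nontrivial H := by
    by_contra hn
    rw [not_nontrivial_iff_subsingleton] at hn
    obtain ⟨η, h1, -⟩ := hφ
    have h2 : (fun i => ‖η i‖ ^ 2) = fun _ => (0 : ℝ) := by
      funext i
      rw [Subsingleton.elim (η i) 0]; simp
    rw [h2] at h1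
    exact one_ne_zero (h1.unique hasSum_zero)
  obtain ⟨χ, hχ, hχf⟩ := exists_faithful M
  set t : ℝ := min (1 / 2) (ε / 4) with ht
  have ht0 : 0 < t := lt_min (by norm_num) (by positivity)
  have ht1 : t ≤ 1 / 2 := min_le_left _ _
  have htε : t ≤ ε / 4 := min_le_right _ _
  have hN : NPF M (fun x => ((1 - t : ℝ) : ℂ) * φ x) ((1 - t) * 1) := by
    obtain ⟨η, h1, h2⟩ := hφ
    exact NPF.smul ⟨η, 1, h1, le_rfl, h2⟩ (by linarith)
  have hN' : NPF M (fun x => ((t : ℝ) : ℂ) * χ x) (t * 1) := by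
    obtain ⟨η, h1, h2⟩ := hχ
    exact NPF.smul ⟨η, 1, h1, le_rfl, h2⟩ ht0.le
  obtain ⟨θ, hθ, hθe⟩ := NPF.sum (Finset.univ : Finset Bool)
    (ρ := fun b => if b then (fun x => ((1 - t : ℝ) : ℂ) * φ x) else fun x => ((t : ℝ) : ℂ) * χ x)
    (m := fun b => if b then (1 - t) * 1 else t * 1) (by
      intro b _
      cases b
      · simpa using hN'
      · simpa using hN)
  have hθx : ∀ x ∈ M, θ x = ((1 - t : ℝ) : ℂ) * φ x + ((t : ℝ) : ℂ) * χ x := by
    intro x hx
    rw [hθe x hx, Fintype.sum_bool]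
    simp
  have hθn : IsNormalState M θ := hθ.normal (by
    rw [hθx 1 (one_mem M), state_one hφ, state_one hχ]
    push_cast
    ring)
  have hθf : IsFaithful M θ := by
    intro x hx h0
    apply hχf x hx
    have hm := mul_mem (star_mem hx) hx
    rw [hθx _ hm] at h0
    have h1 := state_sq_nonneg hφ hx
    have h2 := state_sq_nonneg hχ hx
    have h3 := congrArg Complex.re h0
    rw [Complex.add_re, Complex.re_ofReal_mul, Complex.re_ofReal_mul, Complex.zero_re] at h3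
    have h4 : (χ (star x * x)).re = 0 := by nlinarith
    obtain ⟨V, -, hV⟩ := PD.exists_vec hχ
    rw [hV _ hm, amp_mul, amp_star, Cmp.inner_star_mul_self] at h4 ⊢
    rw [← Complex.ofReal_pow, Complex.ofReal_re] at h4
    rw [← Complex.ofReal_pow, h4]
    rfl
  have hclose : ∀ y ∈ M, ‖θ y - φ y‖ ≤ ε / 2 * ‖y‖ := by
    intro y hy
    have e : θ y - φ y = ((t : ℝ) : ℂ) * (χ y - φ y) := by
      rw [hθx y hy]; push_cast; ring
    rw [e, norm_mul, Complex.norm_real, Real.norm_of_nonneg ht0.le]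
    have h1 := norm_sub_le (χ y) (φ y)
    have h2 := state_norm_le hχ hy
    have h3 := state_norm_le hφ hy
    have h4 : ‖χ y - φ y‖ ≤ 2 * ‖y‖ := by linarith
    calc t * ‖χ y - φ y‖ ≤ (ε / 4) * (2 * ‖y‖) :=
          mul_le_mul htε h4 (norm_nonneg _) (by positivity)
      _ = ε / 2 * ‖y‖ := by ring
  obtain ⟨ψ, h1, h2, h3, A, h4, h5, h6⟩ := masa_main hM hθn hθf (ε := ε / 2) (by positivity)
  refine ⟨ψ, h1, h2, fun y hy => ?_, A, ⟨h4, h5⟩, fun a ha => ⟨h4 a ha, h6 a ha⟩⟩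
  have h7 := norm_add_le (ψ y - θ y) (θ y - φ y)
  rw [sub_add_sub_cancel] at h7
  have h8 := h3 y hy
  have h9 := hclose y hy
  linarith

end Vale.Agent.P132
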