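import Vale.Agent.P132.M723.Faith

/-!
# P132: the diagonal part with respect to a finite partition
-/

open Filter Topology
open scoped ComplexConjugate InnerProductSpace

namespace Vale.Agent.P132

universe u

variable {H : Type u} [NormedAddCommGroup H] [InnerProductSpace ℂ H] [CompleteSpace H]

/-- the diagonal part -/
noncomputable def dg (φ : (H →L[ℂ] H) → ℂ) (P : Finset (H →L[ℂ] H)) (x : H →L[ℂ] H) : H →L[ℂ] H :=
  ∑ p ∈ P, (φ (p * x * p) / φ p) • p

section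

variable {M : VonNeumannAlgebra H} {φ : (H →L[ℂ] H) → ℂ} {V : EllTwo H}
  {P : Finset (H →L[ℂ] H)}

theorem dg_mem (hP : Part M P) (x : H →L[ℂ] H) : dg φ P x ∈ M :=
  sum_mem fun p hp => M.toStarSubalgebra.smul_mem (hP.pr p hp).mem _

theorem dg_sub (hφ : IsNormalState M φ) (hP : Part M P) {x y : H →L[ℂ] H} (hx : x ∈ M)
    (hy : y ∈ M) : dg φ P (x - y) = dg φ P x - dg φ P y := by
  rw [dg, dg, dg, ← Finset.sum_sub_distrib]
  refine Finset.sum_congr rfl fun p hp => ?_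
  rw [mul_sub, sub_mul, state_sub hφ (pinch_term_mem hP hx p hp) (pinch_term_mem hP hy p hp),
    sub_div, sub_smul]

theorem dg_smul (hφ : IsNormalState M φ) (hP : Part M P) (c : ℂ) {x : H →L[ℂ] H} (hx : x ∈ M) :
    dg φ P (c • x) = c • dg φ P x := by
  rw [dg, dg, Finset.smul_sum]
  refine Finset.sum_congr rfl fun p hp => ?_
  rw [mul_smul_comm, smul_mul_assoc, state_smul hφ c (pinch_term_mem hP hx p hp), mul_div_assoc,
    smul_smul]

omit [CompleteSpace H] in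
theorem dg_comm {P : Finset (H →L[ℂ] H)} {y : H →L[ℂ] H} (h : ∀ p ∈ P, p * y = y * p)
    (x : H →L[ℂ] H) : dg φ P x * y = y * dg φ P x := by
  rw [dg, Finset.sum_mul, Finset.mul_sum]
  refine Finset.sum_congr rfl fun p hp => ?_
  rw [smul_mul_assoc, mul_smul_comm, h p hp]

/-- Pythagoras -/
theorem norm_sum_sq {E : Type*} [NormedAddCommGroup E] [InnerProductSpace ℂ E] {κ : Type*}
    (s : Finset κ) (v : κ → E) (h : ∀ i ∈ s, ∀ j ∈ s, i ≠ j → ⟪v i, v j⟫_ℂ = 0) :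
    ‖∑ i ∈ s, v i‖ ^ 2 = ∑ i ∈ s, ‖v i‖ ^ 2 := by
  classical
  have h1 : ⟪∑ i ∈ s, v i, ∑ i ∈ s, v i⟫_ℂ = ∑ i ∈ s, ⟪v i, v i⟫_ℂ := by
    rw [sum_inner]
    refine Finset.sum_congr rfl fun i hi => ?_
    rw [inner_sum, Finset.sum_eq_single i]
    · intro j hj hne
      exact h i hi j hj (Ne.symm hne)
    · intro h'
      exact absurd hi h'
  have h2 := congrArg Complex.re h1
  rw [Complex.re_sum] at h2
  simp only [inner_self_eq_norm_sq_to_K] at h2
  norm_cast at h2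

theorem part_norm_sq (hP : Part M P) (f : EllTwo H) :
    ‖f‖ ^ 2 = ∑ p ∈ P, ‖amp p f‖ ^ 2 := by
  have h1 : f = ∑ p ∈ P, amp p f := by
    have h2 : amp (∑ p ∈ P, p) = ∑ p ∈ P, amp p := by
      classical
      have : ∀ Q : Finset (H →L[ℂ] H), amp (∑ p ∈ Q, p) = ∑ p ∈ Q, amp p := by
        intro Q
        induction Q using Finset.induction_on with
        | empty => simp [amp_zero]
        | insert a s ha ih => rw [Finset.sum_insert ha, Finset.sum_insert ha, amp_add, ih]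
      exact this P
    rw [hP.sum, amp_one] at h2
    have h3 := congrArg (fun T : EllTwo H →L[ℂ] EllTwo H => T f) h2
    simpa using h3
  conv_lhs => rw [h1]
  refine norm_sum_sq P _ fun p hp q hq hne => ?_
  rw [← BC.inner_star' (amp p), ← amp_star, (hP.pr p hp).sa, ← mul_apply_eq_comp, ← amp_mul,
    hP.orth p hp q hq hne, amp_zero]
  simp

theorem amp_sum {κ : Type*} (s : Finset κ) (y : κ → H →L[ℂ] H) :
    amp (∑ i ∈ s, y i) = ∑ i ∈ s, amp (y i) := by
  classical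
  induction s using Finset.induction_on with
  | empty => simp [amp_zero]
  | insert a s ha ih => rw [Finset.sum_insert ha, Finset.sum_insert ha, amp_add, ih]

theorem coef_le (hV : ∀ x ∈ M, φ x = ⟪V, amp x V⟫_ℂ) {p : H →L[ℂ] H} (hp : Cmp.IsPr M p)
    {x : H →L[ℂ] H} (hx : x ∈ M) : ‖φ (p * x * p) / φ p‖ ≤ ‖x‖ := by
  rw [norm_div, vec_pxp hV hp hx, vec_pr hV hp, Complex.norm_real,
    Real.norm_of_nonneg (by positivity)]
  rcases eq_or_ne (amp p V) 0 with h0 | h0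
  · rw [h0]; simp
  · have h1 : 0 < ‖amp p V‖ := norm_pos_iff.2 h0
    rw [div_le_iff₀ (by positivity)]
    refine (norm_inner_le_norm _ _).trans ?_
    have h2 := (amp x).le_opNorm (amp p V)
    have h3 := norm_amp_le x
    calc ‖amp p V‖ * ‖amp x (amp p V)‖ ≤ ‖amp p V‖ * (‖x‖ * ‖amp p V‖) := by
          gcongr
          exact h2.trans (mul_le_mul_of_nonneg_right h3 (norm_nonneg _))
      _ = ‖x‖ * ‖amp p V‖ ^ 2 := by ring

theorem dg_norm_le (hφ : IsNormalState M φ) (hP : Part M P) {x : H →L[ℂ] H} (hx : x ∈ M) :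
    ‖dg φ P x‖ ≤ ‖x‖ := by
  obtain ⟨V, -, hV⟩ := PD.exists_vec hφ
  refine ContinuousLinearMap.opNorm_le_bound _ (norm_nonneg _) fun ζ => ?_
  have h1 : ‖dg φ P x ζ‖ ^ 2 = ∑ p ∈ P, ‖(φ (p * x * p) / φ p) • p ζ‖ ^ 2 := by
    have e : dg φ P x ζ = ∑ p ∈ P, (φ (p * x * p) / φ p) • p ζ := by
      rw [dg, sum_apply]
      rfl
    rw [e]
    refine norm_sum_sq P _ fun p hp q hq hne => ?_
    rw [inner_smul_left, inner_smul_right, ← BC.inner_star' p, (hP.pr p hp).sa,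
      ← mul_apply_eq_comp, hP.orth p hp q hq hne]
    simp
  have h2 : ‖ζ‖ ^ 2 = ∑ p ∈ P, ‖p ζ‖ ^ 2 := by
    have e : ζ = ∑ p ∈ P, p ζ := by
      have h3 := congrArg (fun T : H →L[ℂ] H => T ζ) hP.sum
      simp only [sum_apply] at h3
      exact h3.symm
    conv_lhs => rw [e]
    refine norm_sum_sq P _ fun p hp q hq hne => ?_
    rw [← BC.inner_star' p, (hP.pr p hp).sa, ← mul_apply_eq_comp, hP.orth p hp q hq hne]
    simp
  have h3 : ‖dg φ P x ζ‖ ^ 2 ≤ (‖x‖ * ‖ζ‖) ^ 2 := by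
    rw [h1, mul_pow, h2, Finset.mul_sum]
    refine Finset.sum_le_sum fun p hp => ?_
    rw [norm_smul, mul_pow]
    have h4 := coef_le hV (hP.pr p hp) hx
    gcongr
  exact (pow_le_pow_iff_left₀ (norm_nonneg _) (by positivity) two_ne_zero).1 h3

theorem diag_pot (hφ : IsNormalState M φ) (hf : IsFaithful M φ)
    (hV : ∀ x ∈ M, φ x = ⟪V, amp x V⟫_ℂ) (hP : Part M P) {x : H →L[ℂ] H} (hx : x ∈ M) :
    ‖amp (pinch P x - dg φ P x) V‖ ^ 2 = pot φ P x := by
  have e : pinch P x - dg φ P x = ∑ p ∈ P, (p * x * p - (φ (p * x * p) / φ p) • p) := by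
    rw [pinch, dg, Finset.sum_sub_distrib]
  have e2 : amp (pinch P x - dg φ P x) V =
      ∑ p ∈ P, amp (p * x * p - (φ (p * x * p) / φ p) • p) V := by
    rw [e, amp_sum, sum_apply]
  have e3 : ∀ p ∈ P, p * (p * x * p - (φ (p * x * p) / φ p) • p) =
      p * x * p - (φ (p * x * p) / φ p) • p := by
    intro p hp
    rw [mul_sub, mul_smul_comm, (hP.pr p hp).idem, ← mul_assoc, ← mul_assoc, (hP.pr p hp).idem]
  rw [e2, norm_sum_sq, pot]
  · refine Finset.sum_congr rfl fun p hp => ?_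
    obtain ⟨hm, hφp⟩ := Part.phi_pos hφ hf (hP.pr p hp) (hP.ne p hp)
    have hpr := hP.pr p hp
    have h1 : (φ p).re = ‖amp p V‖ ^ 2 := by rw [vec_pr hV hpr, Complex.ofReal_re]
    set a := amp p V with ha
    set b := amp (p * x * p) V with hb
    set c := φ (p * x * p) with hc
    have hca : ⟪a, b⟫_ℂ = c := by
      have h2 : ⟪amp p V, b⟫_ℂ = ⟪V, amp p b⟫_ℂ := by
        rw [← BC.inner_star (amp p), ← amp_star, hpr.sa]
      rw [ha, h2, hb, ← mul_apply_eq_comp, ← amp_mul, ← mul_assoc, ← mul_assoc, hpr.idem, hc,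
        hV _ (pinch_term_mem hP hx p hp)]
    have hm' : 0 < ‖a‖ ^ 2 := by rw [← h1]; exact hm
    have hfp : φ p = ((‖a‖ ^ 2 : ℝ) : ℂ) := by rw [hφp, h1]
    have h3 : amp (p * x * p - (c / φ p) • p) V = b - (c / φ p) • a := rfl
    have h4 : ⟪b, (c / φ p) • a⟫_ℂ = ((‖c‖ ^ 2 / ‖a‖ ^ 2 : ℝ) : ℂ) := by
      rw [inner_smul_right, ← inner_conj_symm b a, hca, hfp, div_mul_eq_mul_div,
        Complex.mul_conj, Complex.normSq_eq_norm_sq]
      push_cast
      rfl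
    rw [h3, norm_sub_sq (𝕜 := ℂ), h4, pot1, vec_sq hV (pinch_term_mem hP hx p hp), ← hb, ← hc, h1,
      norm_smul, norm_div, hfp, Complex.norm_real, Real.norm_of_nonneg hm'.le]
    have h5 : RCLike.re ((‖c‖ ^ 2 / ‖a‖ ^ 2 : ℝ) : ℂ) = ‖c‖ ^ 2 / ‖a‖ ^ 2 := Complex.ofReal_re _
    rw [h5]
    field_simp
    ring
  · intro p hp q hq hne
    rw [← e3 p hp, amp_mul, mul_apply_eq_comp, ← BC.inner_star' (amp p), ← amp_star,
      (hP.pr p hp).sa, ← e3 q hq, amp_mul, mul_apply_eq_comp, ← mul_apply_eq_comp (amp p),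
      ← amp_mul, hP.orth p hp q hq hne, amp_zero]
    simp

end

end Vale.Agent.P132
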