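import Vale.Agent.P132.M723.Limit

/-!
# P132: the limit state is faithful
-/

open Filter Topology
open scoped ComplexConjugate InnerProductSpace

namespace Vale.Agent.P132

universe u

variable {H : Type u} [NormedAddCommGroup H] [InnerProductSpace ℂ H] [CompleteSpace H]

theorem amp_inj {x y : H →L[ℂ] H} (h : amp x = amp y) : x = y := by
  ext ζ
  have h1 := congrArg (fun T : EllTwo H →L[ℂ] EllTwo H => T (emb 0 ζ) 0) h
  simpa only [amp_apply, emb_apply_self] using h1

/-- the complement of the support projection of a vector -/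
theorem exists_support (M : VonNeumannAlgebra H) (W : EllTwo H) :
    ∃ f ∈ M, star f = f ∧ f * f = f ∧ amp f W = 0 ∧ ∀ x ∈ M, amp x W = 0 → x = x * f := by
  set G : Set (EllTwo H) := {w | ∃ T ∈ (ampVN M).commutant, T W = w} with hG
  set S := (Submodule.span ℂ G).topologicalClosure with hS
  have : CompleteSpace S := (Submodule.isClosed_topologicalClosure _).completeSpace_coe
  have hGM' : ∀ b ∈ (ampVN M).commutant, ∀ g ∈ G, b g ∈ G := by
    rintro b hb _ ⟨a, ha, rfl⟩
    exact ⟨b * a, mul_mem hb ha, rfl⟩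
  have hpM : S.starProjection ∈ ampVN M := xl_mem_of_comm fun y hy ζ =>
    xl_proj_comm S y (xl_inv G y (hGM' y hy)) (xl_inv G _ (hGM' _ (star_mem hy))) ζ
  obtain ⟨q, hq, hqS⟩ := hpM
  have hWS : W ∈ S := Submodule.le_topologicalClosure _ (Submodule.subset_span
    ⟨1, one_mem _, rfl⟩)
  have hsa : star S.starProjection = S.starProjection := by
    rw [ContinuousLinearMap.star_eq_adjoint]
    exact (ContinuousLinearMap.isSelfAdjoint_iff'.1 (isSelfAdjoint_starProjection S))
  have hid : S.starProjection * S.starProjection = S.starProjection :=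
    S.isIdempotentElem_starProjection
  have hqs : star q = q := by
    apply amp_inj
    rw [amp_star, ← hqS, hsa]
  have hqq : q * q = q := by
    apply amp_inj
    rw [amp_mul, ← hqS, hid]
  refine ⟨1 - q, sub_mem (one_mem M) hq, by rw [star_sub, star_one, hqs], ?_, ?_, ?_⟩
  · rw [mul_sub, mul_one, sub_mul, one_mul, hqq, sub_self, sub_zero]
  · have e : amp (1 - q) = 1 - amp q := rfl
    rw [e, ← hqS]
    show W - S.starProjection W = 0
    rw [Submodule.starProjection_eq_self_iff.2 hWS, sub_self]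
  · intro x hx hxW
    have h1 : ∀ ζ ∈ S, amp x ζ = 0 := by
      have h2 : S ≤ LinearMap.ker (amp x : EllTwo H →ₗ[ℂ] EllTwo H) := by
        refine Submodule.topologicalClosure_minimal _ ?_ (amp x).isClosed_ker
        rw [Submodule.span_le]
        rintro _ ⟨T, hT, rfl⟩
        show amp x (T W) = 0
        rw [ModData.comm_apply (M := ampVN M) ⟨x, hx, rfl⟩ hT W, hxW, map_zero]
      exact fun ζ hζ => h2 hζ
    have h3 : x * q = 0 := by
      apply amp_inj
      rw [amp_mul, ← hqS, amp_zero]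
      ext1 ζ
      exact h1 _ (S.starProjection_apply_mem ζ)
    rw [mul_sub, mul_one, h3, sub_zero]

/-- **Faithfulness of the limit.** -/
theorem limit_faithful {M : VonNeumannAlgebra H} {φ : (H →L[ℂ] H) → ℂ}
    (hf : IsFaithful M φ) {P : ℕ → Finset (H →L[ℂ] H)} (hP : ∀ k, Part M (P k))
    {ψ : (H →L[ℂ] H) → ℂ} (hψ : IsNormalState M ψ)
    (hlim : ∀ y ∈ M, Tendsto (fun k => φ (pinch (P k) y)) atTop (𝓝 (ψ y)))
    (hcen : ∀ k, ∀ p ∈ P k, ∀ y ∈ M, ψ (p * y) = ψ (y * p)) : IsFaithful M ψ := by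
  obtain ⟨W, -, hW⟩ := PD.exists_vec hψ
  obtain ⟨f, hfM, hfs, hff, hfW, hx⟩ := exists_support M W
  have hcomm : ∀ k, ∀ p ∈ P k, p * f = f * p := by
    intro k p hp
    have hpr := (hP k).pr p hp
    have h1 : ψ (star (f * p) * (f * p)) = 0 := by
      have e : star (f * p) * (f * p) = p * (f * p) := by
        rw [star_mul, hpr.sa, hfs, mul_assoc, ← mul_assoc f f p, hff]
      have e2 : ⟪W, amp f (amp p W)⟫_ℂ = ⟪amp f W, amp p W⟫_ℂ := by
        rw [← BC.inner_star' (amp f), ← amp_star, hfs]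
      rw [e, hcen k p hp _ (mul_mem hfM hpr.mem), mul_assoc, hpr.idem,
        hW _ (mul_mem hfM hpr.mem), amp_mul, mul_apply_eq_comp, e2, hfW, inner_zero_left]
    have h2 : amp (f * p) W = 0 := by
      have hm := mul_mem hfM hpr.mem
      rw [hW _ (mul_mem (star_mem hm) hm), amp_mul, amp_star, Cmp.inner_star_mul_self] at h1
      have h3 : ‖amp (f * p) W‖ = 0 := by
        have h4 : ((‖amp (f * p) W‖ : ℝ) : ℂ) ^ 2 = 0 := h1
        have h5 := pow_eq_zero_iff (two_ne_zero) |>.1 h4
        exact_mod_cast h5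
      exact norm_eq_zero.1 h3
    have h3 := hx _ (mul_mem hfM hpr.mem) h2
    have h4 := congrArg star h3
    rw [star_mul, star_mul, star_mul, hpr.sa, hfs] at h4
    rw [h4, h3, mul_assoc]
  have hfix : ∀ k, pinch (P k) f = f := fun k => pinch_fix (hP k) (hcomm k)
  have h1 : ψ f = φ f := by
    have h2 := hlim f hfM
    simp only [hfix] at h2
    exact tendsto_nhds_unique h2 tendsto_const_nhds
  have h2 : ψ f = 0 := by
    rw [hW f hfM, hfW, inner_zero_right]
  have h3 : f = 0 := by
    apply hf f hfM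
    rw [hfs, hff, ← h1, h2]
  intro x hxM h0
  have h4 : amp x W = 0 := by
    rw [hW _ (mul_mem (star_mem hxM) hxM), amp_mul, amp_star, Cmp.inner_star_mul_self] at h0
    have h4 : ((‖amp x W‖ : ℝ) : ℂ) ^ 2 = 0 := h0
    have h5 := pow_eq_zero_iff (two_ne_zero) |>.1 h4
    have h6 : ‖amp x W‖ = 0 := by exact_mod_cast h5
    exact norm_eq_zero.1 h6
  rw [hx x hxM h4, h3, mul_zero]

end Vale.Agent.P132
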