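import Vale.Agent.P132.M723.Part
import Mathlib.Analysis.InnerProductSpace.Completion

/-!
# P132: a state dominated by a normal positive functional is normal
-/

open Filter Topology
open scoped ComplexConjugate InnerProductSpace

namespace Vale.Agent.P132

universe u v

theorem exists_contraction {X : Type*} [AddCommGroup X] [Module ℂ X] {E F : Type*}
    [NormedAddCommGroup E] [InnerProductSpace ℂ E] [CompleteSpace E]
    [NormedAddCommGroup F] [InnerProductSpace ℂ F] [CompleteSpace F]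
    (f : X →ₗ[ℂ] E) (g : X →ₗ[ℂ] F) (h : ∀ x, ‖g x‖ ≤ ‖f x‖) :
    ∃ T : E →L[ℂ] F, (∀ x, T (f x) = g x) ∧ (∀ ζ, (∀ x, ⟪f x, ζ⟫_ℂ = 0) → T ζ = 0) := by
  have hker : LinearMap.ker f ≤ LinearMap.ker g := by
    intro x hx
    rw [LinearMap.mem_ker] at hx ⊢
    rw [← norm_le_zero_iff]
    have := h x
    rwa [hx, norm_zero] at this
  -- the map on the range
  let S : Submodule ℂ E := LinearMap.range f
  let t : S →ₗ[ℂ] F := (LinearMap.ker f).liftQ g hker ∘ₗ f.quotKerEquivRange.symm.toLinearMap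
  have ht : ∀ x, t ⟨f x, LinearMap.mem_range_self f x⟩ = g x := by
    intro x
    show (LinearMap.ker f).liftQ g hker (f.quotKerEquivRange.symm ⟨f x, _⟩) = g x
    have : f.quotKerEquivRange.symm ⟨f x, LinearMap.mem_range_self f x⟩
        = Submodule.Quotient.mk x := by
      rw [LinearEquiv.symm_apply_eq]
      rfl
    rw [this]
    rfl
  have htn : ∀ s : S, ‖t s‖ ≤ 1 * ‖s‖ := by
    rintro ⟨_, x, rfl⟩
    have := ht x
    rw [this, one_mul]
    exact h x
  let tc : S →L[ℂ] F := t.mkContinuous 1 htn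
  -- extension to the closure
  let C : Submodule ℂ E := S.topologicalClosure
  have hSC : S ≤ C := S.le_topologicalClosure
  let e : S →L[ℂ] C :=
    { toLinearMap := Submodule.inclusion hSC
      cont := by
        refine continuous_induced_rng.2 ?_
        exact continuous_subtype_val }
  have he_ind : IsUniformInducing e := by
    have h1 : Isometry (e : S → C) := by
      intro x y
      rfl
    exact h1.isUniformInducing
  have he_dense : DenseRange e := by
    rw [DenseRange, dense_iff_closure_eq, Set.eq_univ_iff_forall]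
    rintro ⟨x, hx⟩
    rw [closure_subtype]
    have : (Subtype.val '' Set.range (e : S → C)) = (S : Set E) := by
      ext y
      constructor
      · rintro ⟨_, ⟨s, rfl⟩, rfl⟩
        exact s.2
      · intro hy
        exact ⟨e ⟨y, hy⟩, ⟨⟨y, hy⟩, rfl⟩, rfl⟩
    rw [this]
    exact hx
  have hCc : CompleteSpace C := Submodule.topologicalClosure.completeSpace S
  let T₀ : C →L[ℂ] F := tc.extend e
  have hT₀ : ∀ s : S, T₀ (e s) = t s := fun s => ContinuousLinearMap.extend_eq tc he_dense he_ind s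
  refine ⟨T₀ ∘L C.orthogonalProjectionOnto, ?_, ?_⟩
  · intro x
    have hmem : f x ∈ S := LinearMap.mem_range_self f _
    have h1 : C.orthogonalProjectionOnto (f x) = e ⟨f x, hmem⟩ := by
      have h2 : f x ∈ C := hSC hmem
      exact Submodule.orthogonalProjectionOnto_mem_subspace_eq_self (K := C) ⟨f x, h2⟩
    rw [ContinuousLinearMap.comp_apply, h1, hT₀]
    exact ht _
  · intro ζ hζ
    have hort : ζ ∈ Cᗮ := by
      rw [Submodule.orthogonal_closure]
      rw [Submodule.mem_orthogonal]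
      rintro _ ⟨x, rfl⟩
      exact hζ x
    have h1 : C.orthogonalProjectionOnto ζ = 0 :=
      by rwa [Submodule.orthogonalProjectionOnto_eq_zero_iff]
    rw [ContinuousLinearMap.comp_apply, h1, map_zero]

theorem exists_gns {X : Type u} [AddCommGroup X] [Module ℂ X] (c : PreInnerProductSpace.Core ℂ X) :
    ∃ (K : Type u) (_ : NormedAddCommGroup K) (_ : InnerProductSpace ℂ K) (_ : CompleteSpace K)
      (Λ : X →ₗ[ℂ] K), ∀ x y, ⟪Λ x, Λ y⟫_ℂ = c.inner x y := by
  let _ : SeminormedAddCommGroup X := InnerProductSpace.Core.toSeminormedAddCommGroup (c := c)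
  let _ : InnerProductSpace ℂ X := InnerProductSpace.ofCore c
  refine ⟨UniformSpace.Completion X, inferInstance, inferInstance, inferInstance,
    (UniformSpace.Completion.toComplL : X →L[ℂ] UniformSpace.Completion X).toLinearMap, ?_⟩
  intro x y
  exact UniformSpace.Completion.inner_coe x y

variable {H : Type u} [NormedAddCommGroup H] [InnerProductSpace ℂ H] [CompleteSpace H]

theorem exists_sqrt {E : Type*} [NormedAddCommGroup E] [InnerProductSpace ℂ E] [CompleteSpace E]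
    {S : E →L[ℂ] E} (hSpos : 0 ≤ S) : ∃ r : E →L[ℂ] E, star r = r ∧ r * r = S ∧
      ∀ z : E →L[ℂ] E, S * z = z * S → r * z = z * r := by
  have hSsa : IsSelfAdjoint S := IsSelfAdjoint.of_nonneg hSpos
  refine ⟨cfc Real.sqrt S, (cfc_predicate Real.sqrt S : IsSelfAdjoint _).star_eq, ?_, ?_⟩
  · rw [← cfc_mul Real.sqrt Real.sqrt S Real.continuous_sqrt.continuousOn
      Real.continuous_sqrt.continuousOn]
    conv_rhs => rw [← cfc_id' ℝ S]
    refine cfc_congr fun t ht => ?_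
    exact Real.mul_self_sqrt (spectrum_nonneg_of_nonneg hSpos ht)
  · intro z hz
    have h2 : Commute S z := hz
    exact (h2.cfc_real Real.sqrt).eq

/-- The Radon-Nikodym operator -/
theorem exists_rn {M : VonNeumannAlgebra H} {θ ψ : (H →L[ℂ] H) → ℂ} {m : ℝ} (hθ : NPF M θ m)
    (hadd : ∀ a ∈ M, ∀ b ∈ M, ψ (a + b) = ψ a + ψ b)
    (hsmul : ∀ c : ℂ, ∀ a ∈ M, ψ (c • a) = c * ψ a)
    (hstar : ∀ a ∈ M, ψ (star a) = conj (ψ a))
    (hpos : ∀ a ∈ M, 0 ≤ (ψ (star a * a)).re)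
    (hdom : ∀ a ∈ M, (ψ (star a * a)).re ≤ (θ (star a * a)).re) :
    ∃ (W : EllTwo H) (S : EllTwo H →L[ℂ] EllTwo H), 0 ≤ S ∧
      (∀ x ∈ M, ∀ y ∈ M, ⟪amp x W, S (amp y W)⟫_ℂ = ψ (star x * y)) ∧
      ∀ z ∈ M, S * amp z = amp z * S := by
  obtain ⟨η, s, hη1, -, hη⟩ := hθ
  set W : EllTwo H := ⟨η, (memℓp_two_iff η).2 hη1.summable⟩ with hW
  have hWθ : ∀ x ∈ M, ⟪W, amp x W⟫_ℂ = θ x := fun x hx =>
    (lp.hasSum_inner (𝕜 := ℂ) W (amp x W)).unique (hη x hx)
  -- the GNS space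
  let X := M.toStarSubalgebra
  let core : PreInnerProductSpace.Core ℂ X :=
    { inner := fun x y => ψ (star (x : H →L[ℂ] H) * (y : H →L[ℂ] H))
      conj_inner_symm := fun x y => by
        show conj (ψ (star (y : H →L[ℂ] H) * (x : H →L[ℂ] H))) = _
        rw [← hstar _ (mul_mem (star_mem y.2) x.2), star_mul, star_star]
      re_inner_nonneg := fun x => hpos _ x.2
      add_left := fun x y z => by
        show ψ (star ((x : H →L[ℂ] H) + (y : H →L[ℂ] H)) * (z : H →L[ℂ] H)) = _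
        rw [star_add, add_mul]
        exact hadd _ (mul_mem (star_mem x.2) z.2) _ (mul_mem (star_mem y.2) z.2)
      smul_left := fun x y r => by
        show ψ (star (r • (x : H →L[ℂ] H)) * (y : H →L[ℂ] H)) = _
        rw [star_smul, smul_mul_assoc]
        exact hsmul _ _ (mul_mem (star_mem x.2) y.2) }
  obtain ⟨K, _, _, _, Λ, hΛ⟩ := exists_gns core
  have hΛ' : ∀ x y : X, ⟪Λ x, Λ y⟫_ℂ = ψ (star (x : H →L[ℂ] H) * (y : H →L[ℂ] H)) := hΛ
  let f : X →ₗ[ℂ] EllTwo H :=
    { toFun := fun x => amp (x : H →L[ℂ] H) W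
      map_add' := fun x y => rfl
      map_smul' := fun c x => rfl }
  have hfdef : ∀ x : X, f x = amp (x : H →L[ℂ] H) W := fun x => rfl
  have hle : ∀ x, ‖Λ x‖ ≤ ‖f x‖ := by
    intro x
    have e1 : ‖Λ x‖ ^ 2 = (ψ (star (x : H →L[ℂ] H) * (x : H →L[ℂ] H))).re := by
      rw [← hΛ', inner_self_eq_norm_sq_to_K]; norm_cast
    have e2 : ‖f x‖ ^ 2 = (θ (star (x : H →L[ℂ] H) * (x : H →L[ℂ] H))).re := by
      rw [← hWθ _ (mul_mem (star_mem x.2) x.2), amp_mul, amp_star, Cmp.inner_star_mul_self,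
        hfdef]
      norm_cast
    have h3 : ‖Λ x‖ ^ 2 ≤ ‖f x‖ ^ 2 := by rw [e1, e2]; exact hdom _ x.2
    exact (pow_le_pow_iff_left₀ (norm_nonneg _) (norm_nonneg _) two_ne_zero).1 h3
  obtain ⟨T, hT, hT0⟩ := exists_contraction f Λ hle
  set S : EllTwo H →L[ℂ] EllTwo H := ContinuousLinearMap.adjoint T ∘L T with hS
  have hSin : ∀ ζ ζ', ⟪ζ, S ζ'⟫_ℂ = ⟪T ζ, T ζ'⟫_ℂ := by
    intro ζ ζ'
    rw [hS, ContinuousLinearMap.comp_apply, ContinuousLinearMap.adjoint_inner_right]
  have hSf : ∀ x y : X, ⟪f x, S (f y)⟫_ℂ = ψ (star (x : H →L[ℂ] H) * (y : H →L[ℂ] H)) := by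
    intro x y
    rw [hSin, hT, hT, hΛ']
  -- it commutes with the algebra
  have hcomm : ∀ z : X, S * amp (z : H →L[ℂ] H) = amp (z : H →L[ℂ] H) * S := by
    intro z
    set C : Submodule ℂ (EllTwo H) := (LinearMap.range f).topologicalClosure with hC
    have hCc : CompleteSpace C := Submodule.topologicalClosure.completeSpace _
    have hort : ∀ ζ, ζ ∈ Cᗮ ↔ ∀ x, ⟪f x, ζ⟫_ℂ = 0 := by
      intro ζ
      rw [hC, Submodule.orthogonal_closure, Submodule.mem_orthogonal]
      constructor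
      · intro h x
        exact h _ ⟨x, rfl⟩
      · rintro h _ ⟨x, rfl⟩
        exact h x
    have hamp : ∀ (y : X) (x : X) (ζ : EllTwo H), ⟪f x, amp (y : H →L[ℂ] H) ζ⟫_ℂ =
        ⟪f (star y * x), ζ⟫_ℂ := by
      intro y x ζ
      have e1 : f (star y * x) = amp (star (y : H →L[ℂ] H)) (f x) := rfl
      rw [e1, amp_star, BC.inner_star]
    have hzort : ∀ (y : X) ζ, ζ ∈ Cᗮ → amp (y : H →L[ℂ] H) ζ ∈ Cᗮ := by
      intro y ζ hζ
      rw [hort] at hζ ⊢
      intro x
      rw [hamp]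
      exact hζ _
    have hSC : ∀ ζ, S ζ ∈ C := by
      intro ζ
      have h2 : S ζ ∈ Cᗮᗮ := by
        rw [Submodule.mem_orthogonal]
        intro k hk
        rw [hSin, hT0 k ((hort k).1 hk), inner_zero_left]
      rwa [Submodule.orthogonal_orthogonal] at h2
    have hzC : ∀ ζ ∈ C, amp (z : H →L[ℂ] H) ζ ∈ C := by
      intro ζ hζ
      have h2 : amp (z : H →L[ℂ] H) ζ ∈ Cᗮᗮ := by
        rw [Submodule.mem_orthogonal]
        intro k hk
        have h3 := hzort (star z) k hk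
        have h4 : ⟪k, amp (z : H →L[ℂ] H) ζ⟫_ℂ = ⟪amp ((star z : X) : H →L[ℂ] H) k, ζ⟫_ℂ := by
          have e1 : amp ((star z : X) : H →L[ℂ] H) = star (amp (z : H →L[ℂ] H)) :=
            amp_star _
          rw [e1, BC.inner_star]
        rw [h4]
        exact Submodule.inner_left_of_mem_orthogonal hζ h3
      rwa [Submodule.orthogonal_orthogonal] at h2
    set D := S * amp (z : H →L[ℂ] H) - amp (z : H →L[ℂ] H) * S with hD
    have hDf : ∀ y, D (f y) = 0 := by
      intro y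
      have h2 : D (f y) ∈ C := by
        show S (amp (z : H →L[ℂ] H) (f y)) - amp (z : H →L[ℂ] H) (S (f y)) ∈ C
        exact sub_mem (hSC _) (hzC _ (hSC _))
      have h3 : D (f y) ∈ Cᗮ := by
        rw [hort]
        intro x
        show ⟪f x, S (amp (z : H →L[ℂ] H) (f y)) - amp (z : H →L[ℂ] H) (S (f y))⟫_ℂ = 0
        have e1 : amp (z : H →L[ℂ] H) (f y) = f (z * y) := rfl
        rw [inner_sub_right, hamp, e1, hSf, hSf]
        have e2 : star (((star z * x : X)) : H →L[ℂ] H) * (y : H →L[ℂ] H) =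
            star (x : H →L[ℂ] H) * ((z * y : X) : H →L[ℂ] H) := by
          show star (star (z : H →L[ℂ] H) * (x : H →L[ℂ] H)) * (y : H →L[ℂ] H) =
            star (x : H →L[ℂ] H) * ((z : H →L[ℂ] H) * (y : H →L[ℂ] H))
          rw [star_mul, star_star, mul_assoc]
        rw [e2, sub_self]
      have h4 : D (f y) ∈ C ⊓ Cᗮ := ⟨h2, h3⟩
      rw [Submodule.inf_orthogonal_eq_bot] at h4
      exact (Submodule.mem_bot ℂ).1 h4
    have hDC : ∀ ζ ∈ C, D ζ = 0 := by
      intro ζ hζ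
      have h2 : C ≤ LinearMap.ker (D : EllTwo H →ₗ[ℂ] EllTwo H) := by
        refine Submodule.topologicalClosure_minimal _ ?_ D.isClosed_ker
        rintro _ ⟨y, rfl⟩
        exact hDf y
      exact h2 hζ
    have hDo : ∀ ζ ∈ Cᗮ, D ζ = 0 := by
      intro ζ hζ
      have h2 : ∀ k ∈ Cᗮ, S k = 0 := by
        intro k hk
        rw [hS, ContinuousLinearMap.comp_apply, hT0 k ((hort k).1 hk), map_zero]
      show S (amp (z : H →L[ℂ] H) ζ) - amp (z : H →L[ℂ] H) (S ζ) = 0
      rw [h2 _ (hzort z ζ hζ), h2 ζ hζ, map_zero, sub_zero]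
    have hD0 : D = 0 := by
      ext1 ζ
      have h2 : ζ = C.starProjection ζ + (ζ - C.starProjection ζ) := by abel
      rw [h2, map_add, hDC _ (Submodule.starProjection_apply_mem C ζ),
        hDo _ (Submodule.sub_starProjection_mem_orthogonal ζ)]
      simp
    exact sub_eq_zero.1 hD0
  refine ⟨W, S, ?_, fun x hx y hy => hSf ⟨x, hx⟩ ⟨y, hy⟩, fun z hz => hcomm ⟨z, hz⟩⟩
  rw [ContinuousLinearMap.nonneg_iff_isPositive]
  exact ContinuousLinearMap.isPositive_adjoint_comp_self T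

/-- **Radon-Nikodym.** -/
theorem normal_of_dom {M : VonNeumannAlgebra H} {θ ψ : (H →L[ℂ] H) → ℂ} {m : ℝ} (hθ : NPF M θ m)
    (hadd : ∀ a ∈ M, ∀ b ∈ M, ψ (a + b) = ψ a + ψ b)
    (hsmul : ∀ c : ℂ, ∀ a ∈ M, ψ (c • a) = c * ψ a)
    (hstar : ∀ a ∈ M, ψ (star a) = conj (ψ a))
    (hpos : ∀ a ∈ M, 0 ≤ (ψ (star a * a)).re)
    (hdom : ∀ a ∈ M, (ψ (star a * a)).re ≤ (θ (star a * a)).re) (h1 : ψ 1 = 1) :
    IsNormalState M ψ := by
  obtain ⟨W, S, hSpos, hSf, hcomm⟩ := exists_rn hθ hadd hsmul hstar hpos hdom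
  obtain ⟨r, hrs, hrr, hrc⟩ := exists_sqrt hSpos
  set V : EllTwo H := r W with hV
  have hψV : ∀ x ∈ M, ⟪V, amp x V⟫_ℂ = ψ x := by
    intro x hx
    have e1 : amp x V = r (amp x W) := by
      have := congrArg (fun T : EllTwo H →L[ℂ] EllTwo H => T W) (hrc _ (hcomm x hx))
      exact this.symm
    have e2 : ⟪V, amp x V⟫_ℂ = ⟪W, (r * r) (amp x W)⟫_ℂ := by
      rw [e1, hV]
      conv_lhs => rw [← BC.inner_star' r, hrs]
      rfl
    rw [e2, hrr]
    have e3 := hSf 1 (one_mem M) x hx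
    rw [star_one, one_mul, amp_one] at e3
    exact e3
  refine ⟨fun i => V i, ?_, fun x hx => ?_⟩
  · have h2 := L2_norm_sq V
    have h3 : ‖V‖ ^ 2 = 1 := by
      have h4 := hψV 1 (one_mem M)
      rw [amp_one, h1] at h4
      have h5 : ⟪V, V⟫_ℂ = 1 := h4
      rw [inner_self_eq_norm_sq_to_K] at h5
      have h6 : ((‖V‖ ^ 2 : ℝ) : ℂ) = ((1 : ℝ) : ℂ) := by
        rw [Complex.ofReal_pow, Complex.ofReal_one]; exact h5
      exact Complex.ofReal_injective h6
    rwa [h3] at h2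
  · have h2 := lp.hasSum_inner (𝕜 := ℂ) V (amp x V)
    rw [hψV x hx] at h2
    exact h2

end Vale.Agent.P132
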