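import Vale.Agent.P132.M723.Step
import Vale.Agent.P132.M723.RNs

/-!
# P132: the sequence of partitions
-/

open Filter Topology
open scoped ComplexConjugate InnerProductSpace

namespace Vale.Agent.P132

universe u

variable {H : Type u} [NormedAddCommGroup H] [InnerProductSpace ℂ H] [CompleteSpace H]

/-- the sequence of partitions -/
structure PSeq (M : VonNeumannAlgebra H) (φ : (H →L[ℂ] H) → ℂ) (ε : ℝ) (x : ℕ → H →L[ℂ] H)
    (P : ℕ → Finset (H →L[ℂ] H)) : Prop where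
  part : ∀ k, Part M (P k)
  zero : P 0 = {1}
  ref : ∀ k, Ref (P k) (P (k + 1))
  close : ∀ k, ∀ y ∈ M, ‖φ (pinch (P (k + 1)) y) - φ (pinch (P k) y)‖ ≤ ε / 2 ^ (k + 1) * ‖y‖
  dom : ∀ k, ∃ ρ, NPF M ρ (ε / 2 ^ (k + 1)) ∧ ∀ y ∈ M, (φ (pinch (P (k + 1)) (star y * y))).re ≤
    (1 + ε / 2 ^ (k + 1)) * (φ (pinch (P k) (star y * y))).re + (ρ (star y * y)).re
  pot0 : ∀ i, Tendsto (fun k => pot φ (P k) (x i)) atTop (𝓝 0)

section pots

variable {M : VonNeumannAlgebra H} {φ : (H →L[ℂ] H) → ℂ} {V : EllTwo H}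

theorem vec_sq (hV : ∀ x ∈ M, φ x = ⟪V, amp x V⟫_ℂ) {y : H →L[ℂ] H} (hy : y ∈ M) :
    (φ (star y * y)).re = ‖amp y V‖ ^ 2 := by
  rw [hV _ (mul_mem (star_mem hy) hy), amp_mul, amp_star, Cmp.inner_star_mul_self]
  norm_cast

theorem vec_pr (hV : ∀ x ∈ M, φ x = ⟪V, amp x V⟫_ℂ) {p : H →L[ℂ] H} (hp : Cmp.IsPr M p) :
    φ p = ((‖amp p V‖ ^ 2 : ℝ) : ℂ) := by
  have h2 : φ p = φ (star p * p) := by rw [hp.sa, hp.idem]
  rw [h2, hV _ (mul_mem (star_mem hp.mem) hp.mem), amp_mul, amp_star, Cmp.inner_star_mul_self]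
  norm_cast

theorem vec_pxp (hV : ∀ x ∈ M, φ x = ⟪V, amp x V⟫_ℂ) {p : H →L[ℂ] H} (hp : Cmp.IsPr M p)
    {x : H →L[ℂ] H} (hx : x ∈ M) : φ (p * x * p) = ⟪amp p V, amp x (amp p V)⟫_ℂ := by
  rw [hV _ (mul_mem (mul_mem hp.mem hx) hp.mem), amp_mul, amp_mul]
  rw [← BC.inner_star' (amp p), ← amp_star, hp.sa]
  rfl

theorem pot1_eq (hV : ∀ x ∈ M, φ x = ⟪V, amp x V⟫_ℂ) {p : H →L[ℂ] H} (hp : Cmp.IsPr M p)
    {x : H →L[ℂ] H} (hx : x ∈ M) : pot1 φ p x = ‖amp p (amp x (amp p V))‖ ^ 2 -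
      ‖⟪amp p V, amp x (amp p V)⟫_ℂ‖ ^ 2 / ‖amp p V‖ ^ 2 := by
  rw [pot1, vec_sq hV (mul_mem (mul_mem hp.mem hx) hp.mem), vec_pxp hV hp hx, vec_pr hV hp,
    Complex.ofReal_re]
  rfl

theorem pot1_nonneg (hV : ∀ x ∈ M, φ x = ⟪V, amp x V⟫_ℂ) {p : H →L[ℂ] H} (hp : Cmp.IsPr M p)
    {x : H →L[ℂ] H} (hx : x ∈ M) : 0 ≤ pot1 φ p x := by
  rw [pot1_eq hV hp hx, sub_nonneg]
  rcases eq_or_ne (amp p V) 0 with h0 | h0
  · rw [h0]; simp
  · have h1 : 0 < ‖amp p V‖ := norm_pos_iff.2 h0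
    rw [div_le_iff₀ (by positivity), ← mul_pow]
    apply pow_le_pow_left₀ (norm_nonneg _)
    have h2 : ⟪amp p V, amp x (amp p V)⟫_ℂ = ⟪amp p V, amp p (amp x (amp p V))⟫_ℂ := by
      have h3 : amp p V = amp p (amp p V) := by
        have : amp p * amp p = amp p := by rw [← amp_mul, hp.idem]
        exact (congrArg (fun T : EllTwo H →L[ℂ] EllTwo H => T V) this).symm
      conv_lhs => rw [h3]
      have h4 : star (amp p) = amp p := by rw [← amp_star, hp.sa]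
      conv_lhs => rw [← h4, BC.inner_star]
      rw [h4, ← h3]
    rw [h2, mul_comm]
    exact norm_inner_le_norm _ _

theorem amp_pr_norm {p : H →L[ℂ] H} (hp : Cmp.IsPr M p) (f : EllTwo H) : ‖amp p f‖ ≤ ‖f‖ :=
  Gf.norm_pr_le (H := EllTwo H) (by rw [← amp_star, hp.sa]) (by rw [← amp_mul, hp.idem]) f

theorem pot1_le (hV : ∀ x ∈ M, φ x = ⟪V, amp x V⟫_ℂ) {p : H →L[ℂ] H} (hp : Cmp.IsPr M p)
    {x : H →L[ℂ] H} (hx : x ∈ M) : pot1 φ p x ≤ ‖x‖ ^ 2 * (φ p).re := by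
  rw [pot1_eq hV hp hx, vec_pr hV hp, Complex.ofReal_re]
  have h1 : 0 ≤ ‖⟪amp p V, amp x (amp p V)⟫_ℂ‖ ^ 2 / ‖amp p V‖ ^ 2 := by positivity
  have h2 : ‖amp p (amp x (amp p V))‖ ≤ ‖x‖ * ‖amp p V‖ := by
    refine (amp_pr_norm hp _).trans (((amp x).le_opNorm _).trans ?_)
    exact mul_le_mul_of_nonneg_right (norm_amp_le x) (norm_nonneg _)
  have h3 : ‖amp p (amp x (amp p V))‖ ^ 2 ≤ (‖x‖ * ‖amp p V‖) ^ 2 :=
    pow_le_pow_left₀ (norm_nonneg _) h2 2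
  rw [mul_pow] at h3
  linarith

theorem part_mass (hφ : IsNormalState M φ) {P : Finset (H →L[ℂ] H)} (hP : Part M P) :
    ∑ p ∈ P, (φ p).re = 1 := by
  rw [← Complex.re_sum, ← state_sum hφ P fun p hp => (hP.pr p hp).mem, hP.sum, state_one hφ]
  rfl

theorem pot_nonneg (hφ : IsNormalState M φ) {P : Finset (H →L[ℂ] H)} (hP : Part M P)
    {x : H →L[ℂ] H} (hx : x ∈ M) : 0 ≤ pot φ P x := by
  obtain ⟨V, -, hV⟩ := PD.exists_vec hφ
  exact Finset.sum_nonneg fun p hp => pot1_nonneg hV (hP.pr p hp) hx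

theorem pot_le (hφ : IsNormalState M φ) {P : Finset (H →L[ℂ] H)} (hP : Part M P)
    {x : H →L[ℂ] H} (hx : x ∈ M) : pot φ P x ≤ ‖x‖ ^ 2 := by
  obtain ⟨V, -, hV⟩ := PD.exists_vec hφ
  refine (Finset.sum_le_sum fun p hp => pot1_le hV (hP.pr p hp) hx).trans ?_
  rw [← Finset.mul_sum, part_mass hφ hP, mul_one]

theorem pot_smul (hφ : IsNormalState M φ) {P : Finset (H →L[ℂ] H)} (hP : Part M P)
    {x : H →L[ℂ] H} (hx : x ∈ M) (c : ℝ) : pot φ P ((c : ℂ) • x) = c ^ 2 * pot φ P x := by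
  rw [pot, pot, Finset.mul_sum]
  refine Finset.sum_congr rfl fun p hp => ?_
  have hpM := (hP.pr p hp).mem
  have hpxp : p * x * p ∈ M := mul_mem (mul_mem hpM hx) hpM
  have e1 : p * ((c : ℂ) • x) * p = (c : ℂ) • (p * x * p) := by
    rw [mul_smul_comm, smul_mul_assoc]
  have e2 : star ((c : ℂ) • (p * x * p)) * ((c : ℂ) • (p * x * p)) =
      (((c ^ 2 : ℝ)) : ℂ) • (star (p * x * p) * (p * x * p)) := by
    rw [star_smul, smul_mul_smul_comm]
    congr 1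
    simp [sq]
  rw [pot1, pot1, e1, e2, state_smul hφ _ (mul_mem (star_mem hpxp) hpxp), state_smul hφ _ hpxp,
    Complex.re_ofReal_mul, norm_mul, mul_pow, Complex.norm_real, Real.norm_eq_abs, sq_abs]
  ring

end pots

theorem tendsto_zero_of_contraction {a b : ℕ → ℝ} (ha : ∀ k, 0 ≤ a k)
    (h : ∀ k, a (k + 1) ≤ 7 / 8 * a k + b k) (hb0 : ∀ k, 0 ≤ b k) (hb : Summable b) :
    Tendsto a atTop (𝓝 0) := by
  have hsum : Summable a := by
    refine summable_of_sum_range_le (c := 8 * (a 0 + ∑' k, b k)) ha fun n => ?_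
    have h1 : ∑ k ∈ Finset.range n, a (k + 1) ≤ 7 / 8 * ∑ k ∈ Finset.range n, a k + ∑' k, b k := by
      refine (Finset.sum_le_sum fun k _ => h k).trans ?_
      rw [Finset.sum_add_distrib, ← Finset.mul_sum]
      exact add_le_add le_rfl (hb.sum_le_tsum _ fun k _ => hb0 k)
    have h2 := Finset.sum_range_succ' a n
    have h3 := Finset.sum_range_succ a n
    have h4 := ha n
    linarith
  exact hsum.tendsto_atTop_zero

theorem exists_seq {M : VonNeumannAlgebra H} (hM : IsTypeIIIOneFactor M)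
    {φ : (H →L[ℂ] H) → ℂ} (hφ : IsNormalState M φ) (hf : IsFaithful M φ)
    {x : ℕ → H →L[ℂ] H} (hx : ∀ j, x j ∈ M) (hx1 : ∀ j, ‖x j‖ ≤ 1) {ε : ℝ} (hε : 0 < ε) :
    ∃ P, PSeq M φ ε x P := by
  classical
  have h10 : (1 : H →L[ℂ] H) ≠ 0 := by
    intro h
    have h1 := state_one hφ
    rw [h, state_zero hφ] at h1
    exact zero_ne_one h1
  have hP0 : Part M ({1} : Finset (H →L[ℂ] H)) := by
    refine ⟨?_, ?_, ?_, ?_⟩
    · intro p hp
      rw [Finset.mem_singleton.1 hp]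
      exact ⟨one_mem M, star_one _, one_mul 1⟩
    · intro p hp
      rw [Finset.mem_singleton.1 hp]
      exact h10
    · intro p hp q hq hne
      exact absurd ((Finset.mem_singleton.1 hp).trans (Finset.mem_singleton.1 hq).symm) hne
    · simp
  set z : ℕ → H →L[ℂ] H := fun i => (((1 / 2 : ℝ) ^ i : ℝ) : ℂ) • x i with hz
  have hzM : ∀ i, z i ∈ M := fun i => M.toStarSubalgebra.smul_mem (hx i) _
  have hz1 : ∀ i, ‖z i‖ ^ 2 ≤ (1 / 4 : ℝ) ^ i := by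
    intro i
    have h1 : ‖z i‖ ≤ (1 / 2 : ℝ) ^ i := by
      rw [hz]
      show ‖(((1 / 2 : ℝ) ^ i : ℝ) : ℂ) • x i‖ ≤ _
      rw [norm_smul, Complex.norm_real, Real.norm_of_nonneg (by positivity)]
      have := hx1 i
      have h2 : (0 : ℝ) ≤ (1 / 2) ^ i := by positivity
      nlinarith
    calc ‖z i‖ ^ 2 ≤ ((1 / 2 : ℝ) ^ i) ^ 2 := pow_le_pow_left₀ (norm_nonneg _) h1 2
      _ = (1 / 4 : ℝ) ^ i := by
        rw [← pow_mul, mul_comm, pow_mul]; norm_num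
  have hstep : ∀ (k : ℕ) (P : {P : Finset (H →L[ℂ] H) // Part M P}),
      ∃ P' : {P : Finset (H →L[ℂ] H) // Part M P}, Ref P.1 P'.1 ∧
      (∀ y ∈ M, ‖φ (pinch P'.1 y) - φ (pinch P.1 y)‖ ≤ ε / 2 ^ (k + 1) * ‖y‖) ∧
      (∃ ρ, NPF M ρ (ε / 2 ^ (k + 1)) ∧ ∀ y ∈ M, (φ (pinch P'.1 (star y * y))).re ≤
        (1 + ε / 2 ^ (k + 1)) * (φ (pinch P.1 (star y * y))).re + (ρ (star y * y)).re) ∧
      ∑ j ∈ Finset.range k, pot φ P'.1 (z j) ≤
        7 / 8 * ∑ j ∈ Finset.range k, pot φ P.1 (z j) + ε / 2 ^ (k + 1) := by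
    rintro k ⟨P, hP⟩
    obtain ⟨P', h1, h2, h3, h4, h5⟩ := step hM hφ hf (x := fun j : Fin k => z j)
      (fun j => hzM j) (ε := ε / 2 ^ (k + 1)) (by positivity) hP
    refine ⟨⟨P', h1⟩, h2, h3, h4, ?_⟩
    rw [Finset.sum_range, Finset.sum_range]
    exact h5
  choose F hF1 hF2 hF3 hF4 using hstep
  let P : ℕ → {P : Finset (H →L[ℂ] H) // Part M P} :=
    fun k => Nat.rec ⟨{1}, hP0⟩ (fun k P => F k P) k
  have hPs : ∀ k, P (k + 1) = F k (P k) := fun k => rfl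
  refine ⟨fun k => (P k).1, fun k => (P k).2, rfl, fun k => ?_, fun k => ?_, fun k => ?_,
    fun i => ?_⟩
  · rw [hPs]; exact hF1 k (P k)
  · rw [hPs]; exact hF2 k (P k)
  · rw [hPs]; exact hF3 k (P k)
  · set a : ℕ → ℝ := fun k => ∑ j ∈ Finset.range k, pot φ (P k).1 (z j) with ha
    have ha0 : ∀ k, 0 ≤ a k := fun k =>
      Finset.sum_nonneg fun j _ => pot_nonneg hφ (P k).2 (hzM j)
    have hrec : ∀ k, a (k + 1) ≤ 7 / 8 * a k + (ε / 2 ^ (k + 1) + (1 / 4 : ℝ) ^ k) := by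
      intro k
      have h1 := hF4 k (P k)
      rw [← hPs] at h1
      have h2 : a (k + 1) = ∑ j ∈ Finset.range k, pot φ (P (k + 1)).1 (z j) +
          pot φ (P (k + 1)).1 (z k) := Finset.sum_range_succ _ _
      have h3 := (pot_le hφ (P (k + 1)).2 (hzM k)).trans (hz1 k)
      rw [h2]
      have h4 : a k = ∑ j ∈ Finset.range k, pot φ (P k).1 (z j) := rfl
      rw [h4]
      linarith
    have hsm : Summable fun k : ℕ => ε / 2 ^ (k + 1) + (1 / 4 : ℝ) ^ k := by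
      apply Summable.add
      · have h1 : (fun k : ℕ => ε / 2 ^ (k + 1)) = fun k : ℕ => (ε / 2) * (1 / 2 : ℝ) ^ k := by
          funext k
          rw [pow_succ, div_pow, one_pow]
          field_simp
        rw [h1]
        exact (summable_geometric_of_lt_one (by norm_num) (by norm_num)).mul_left _
      · exact summable_geometric_of_lt_one (by norm_num) (by norm_num)
    have hta := tendsto_zero_of_contraction ha0 hrec (fun k => by positivity) hsm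
    have hpz : Tendsto (fun k => pot φ (P k).1 (z i)) atTop (𝓝 0) := by
      refine squeeze_zero' (Eventually.of_forall fun k => pot_nonneg hφ (P k).2 (hzM i)) ?_ hta
      filter_upwards [eventually_gt_atTop i] with k hk
      exact Finset.single_le_sum (f := fun j => pot φ (P k).1 (z j))
        (fun j _ => pot_nonneg hφ (P k).2 (hzM j)) (Finset.mem_range.2 hk)
    have h1 : ∀ k, pot φ (P k).1 (x i) = ((2 : ℝ) ^ i) ^ 2 * pot φ (P k).1 (z i) := by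
      intro k
      rw [← pot_smul hφ (P k).2 (hzM i)]
      congr 1
      rw [hz]
      show x i = (((2 : ℝ) ^ i : ℝ) : ℂ) • ((((1 / 2 : ℝ) ^ i : ℝ) : ℂ) • x i)
      rw [smul_smul, ← Complex.ofReal_mul, ← mul_pow]
      norm_num
    have h2 := hpz.const_mul (((2 : ℝ) ^ i) ^ 2)
    rw [mul_zero] at h2
    exact h2.congr fun k => (h1 k).symm

end Vale.Agent.P132
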