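import Vale.Agent.P132.M723.Iter

/-!
# P132: the limit state
-/

open Filter Topology
open scoped ComplexConjugate InnerProductSpace

namespace Vale.Agent.P132

universe u

variable {H : Type u} [NormedAddCommGroup H] [InnerProductSpace ℂ H] [CompleteSpace H]

section pinching

variable {M : VonNeumannAlgebra H} {φ : (H →L[ℂ] H) → ℂ} {P Q : Finset (H →L[ℂ] H)}

theorem state_star (hφ : IsNormalState M φ) {a : H →L[ℂ] H} (ha : a ∈ M) :
    φ (star a) = conj (φ a) := by
  obtain ⟨V, -, hV⟩ := PD.exists_vec hφ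
  rw [hV _ (star_mem ha), hV _ ha, amp_star, inner_conj_symm, BC.inner_star' (amp a)]

theorem pinch_term_mem (hP : Part M P) {y : H →L[ℂ] H} (hy : y ∈ M) : ∀ p ∈ P, p * y * p ∈ M :=
  fun p hp => mul_mem (mul_mem (hP.pr p hp).mem hy) (hP.pr p hp).mem

theorem pinch_mem (hP : Part M P) {y : H →L[ℂ] H} (hy : y ∈ M) : pinch P y ∈ M :=
  sum_mem (pinch_term_mem hP hy)

omit [CompleteSpace H] in
theorem pinch_add (a b : H →L[ℂ] H) : pinch P (a + b) = pinch P a + pinch P b := by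
  rw [pinch, pinch, pinch, ← Finset.sum_add_distrib]
  exact Finset.sum_congr rfl fun p _ => by rw [mul_add, add_mul]

omit [CompleteSpace H] in
theorem pinch_smul (c : ℂ) (a : H →L[ℂ] H) : pinch P (c • a) = c • pinch P a := by
  rw [pinch, pinch, Finset.smul_sum]
  exact Finset.sum_congr rfl fun p _ => by rw [mul_smul_comm, smul_mul_assoc]

theorem pinch_star (hP : Part M P) (a : H →L[ℂ] H) : pinch P (star a) = star (pinch P a) := by
  rw [pinch, pinch, star_sum]
  refine Finset.sum_congr rfl fun p hp => ?_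
  rw [star_mul, star_mul, (hP.pr p hp).sa, mul_assoc]

theorem pinch_one (hP : Part M P) : pinch P 1 = 1 := by
  rw [pinch]
  have h : ∀ p ∈ P, p * 1 * p = p := fun p hp => by rw [mul_one, (hP.pr p hp).idem]
  rw [Finset.sum_congr rfl h, hP.sum]

theorem pinch_sq_nonneg (hφ : IsNormalState M φ) (hP : Part M P) {a : H →L[ℂ] H} (ha : a ∈ M) :
    0 ≤ (φ (pinch P (star a * a))).re := by
  have haa : star a * a ∈ M := mul_mem (star_mem ha) ha
  rw [pinch, state_sum hφ P (pinch_term_mem hP haa), Complex.re_sum]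
  refine Finset.sum_nonneg fun p hp => ?_
  have e : p * (star a * a) * p = star (a * p) * (a * p) := by
    rw [star_mul, (hP.pr p hp).sa]
    simp only [mul_assoc]
  rw [e]
  exact state_sq_nonneg hφ (mul_mem ha (hP.pr p hp).mem)

/-- refinement, elementwise -/
theorem Ref.cases (hP : Part M P) (hQ : Part M Q) (h : Ref P Q) {p q : H →L[ℂ] H} (hp : p ∈ P)
    (hq : q ∈ Q) : (p * q = q ∧ q * p = q) ∨ (p * q = 0 ∧ q * p = 0) := by
  have key : p * q = q ∨ p * q = 0 := by
    obtain ⟨p', hp', h1⟩ := h q hq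
    by_cases hpp : p = p'
    · left; rw [hpp, h1]
    · right
      rw [← h1, ← mul_assoc, hP.orth p hp p' hp' hpp, zero_mul]
  rcases key with h1 | h1
  · left
    refine ⟨h1, ?_⟩
    have h2 := congrArg star h1
    rwa [star_mul, (hP.pr p hp).sa, (hQ.pr q hq).sa] at h2
  · right
    refine ⟨h1, ?_⟩
    have h2 := congrArg star h1
    rwa [star_mul, (hP.pr p hp).sa, (hQ.pr q hq).sa, star_zero] at h2

theorem Ref.comm (hP : Part M P) (hQ : Part M Q) (h : Ref P Q) {p q : H →L[ℂ] H} (hp : p ∈ P)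
    (hq : q ∈ Q) : p * q = q * p := by
  rcases h.cases hP hQ hp hq with ⟨h1, h2⟩ | ⟨h1, h2⟩ <;> rw [h1, h2]

theorem pinch_comm (hP : Part M P) (hQ : Part M Q) (h : Ref P Q) {p : H →L[ℂ] H} (hp : p ∈ P)
    (y : H →L[ℂ] H) : pinch Q (p * y) = pinch Q (y * p) := by
  refine Finset.sum_congr rfl fun q hq => ?_
  rcases h.cases hP hQ hp hq with ⟨h1, h2⟩ | ⟨h1, h2⟩
  · rw [← mul_assoc, h2, mul_assoc, mul_assoc, mul_assoc, h1]
  · rw [← mul_assoc, h2, mul_assoc, mul_assoc, mul_assoc, h1]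
    simp

/-- elements commuting with the partition are fixed by the pinching -/
theorem pinch_fix (hP : Part M P) {y : H →L[ℂ] H} (h : ∀ p ∈ P, p * y = y * p) :
    pinch P y = y := by
  rw [pinch]
  have h1 : ∀ p ∈ P, p * y * p = y * p := fun p hp => by
    rw [h p hp, mul_assoc, (hP.pr p hp).idem]
  rw [Finset.sum_congr rfl h1, ← Finset.mul_sum, hP.sum, mul_one]

end pinching

theorem NPF.sq_nonneg {M : VonNeumannAlgebra H} {ρ : (H →L[ℂ] H) → ℂ} {m : ℝ} (h : NPF M ρ m)
    {a : H →L[ℂ] H} (ha : a ∈ M) : 0 ≤ (ρ (star a * a)).re := by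
  obtain ⟨η, s, -, -, h3⟩ := h
  have h4 := Complex.reCLM.hasSum (h3 _ (mul_mem (star_mem ha) ha))
  refine h4.nonneg fun i => ?_
  simp only [Complex.reCLM_apply]
  rw [Cmp.inner_star_mul_self, ← Complex.ofReal_pow, Complex.ofReal_re]
  positivity

theorem geom_bound {ε : ℝ} (hε : 0 < ε) (k : ℕ) :
    (1 + ε / 2 ^ (k + 1)) * Real.exp (ε * (1 - 1 / 2 ^ k)) ≤
      Real.exp (ε * (1 - 1 / 2 ^ (k + 1))) := by
  have h1 : 1 + ε / 2 ^ (k + 1) ≤ Real.exp (ε / 2 ^ (k + 1)) := by
    rw [add_comm]; exact Real.add_one_le_exp _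
  calc (1 + ε / 2 ^ (k + 1)) * Real.exp (ε * (1 - 1 / 2 ^ k))
      ≤ Real.exp (ε / 2 ^ (k + 1)) * Real.exp (ε * (1 - 1 / 2 ^ k)) :=
        mul_le_mul_of_nonneg_right h1 (Real.exp_pos _).le
    _ = Real.exp (ε * (1 - 1 / 2 ^ (k + 1))) := by
        rw [← Real.exp_add]
        congr 1
        rw [pow_succ]
        field_simp
        ring

/-- the limit functional -/
theorem exists_limit {M : VonNeumannAlgebra H} {φ : (H →L[ℂ] H) → ℂ} (hφ : IsNormalState M φ)
    {ε : ℝ} (hε : 0 < ε) {x : ℕ → H →L[ℂ] H} {P : ℕ → Finset (H →L[ℂ] H)}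
    (h : PSeq M φ ε x P) :
    ∃ ψ : (H →L[ℂ] H) → ℂ, IsNormalState M ψ ∧
      (∀ y ∈ M, Tendsto (fun k => φ (pinch (P k) y)) atTop (𝓝 (ψ y))) ∧
      ∀ y ∈ M, ∀ k, ‖φ (pinch (P k) y) - ψ y‖ ≤ ε * ‖y‖ / 2 ^ k := by
  have hgeo : ∀ y ∈ M, ∀ k, dist (φ (pinch (P k) y)) (φ (pinch (P (k + 1)) y)) ≤
      ε * ‖y‖ / 2 / 2 ^ k := by
    intro y hy k
    rw [dist_comm, dist_eq_norm]
    refine (h.close k y hy).trans (le_of_eq ?_)
    rw [pow_succ]
    field_simp
  have hex : ∀ y : H →L[ℂ] H, ∃ z : ℂ, y ∈ M →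
      Tendsto (fun k => φ (pinch (P k) y)) atTop (𝓝 z) := by
    intro y
    by_cases hy : y ∈ M
    · obtain ⟨z, hz⟩ := cauchySeq_tendsto_of_complete (cauchySeq_of_le_geometric_two (hgeo y hy))
      exact ⟨z, fun _ => hz⟩
    · exact ⟨0, fun h' => absurd h' hy⟩
  choose ψ hψ using hex
  have hclose : ∀ y ∈ M, ∀ k, ‖φ (pinch (P k) y) - ψ y‖ ≤ ε * ‖y‖ / 2 ^ k := by
    intro y hy k
    rw [← dist_eq_norm]
    exact dist_le_of_le_geometric_two_of_tendsto (hgeo y hy) (hψ y hy) k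
  refine ⟨ψ, ?_, hψ, hclose⟩
  have hadd : ∀ a ∈ M, ∀ b ∈ M, ψ (a + b) = ψ a + ψ b := by
    intro a ha b hb
    refine tendsto_nhds_unique (hψ _ (add_mem ha hb)) (((hψ a ha).add (hψ b hb)).congr fun k => ?_)
    rw [pinch_add, state_add hφ (pinch_mem (h.part k) ha) (pinch_mem (h.part k) hb)]
  have hsmul : ∀ c : ℂ, ∀ a ∈ M, ψ (c • a) = c * ψ a := by
    intro c a ha
    refine tendsto_nhds_unique (hψ _ (M.toStarSubalgebra.smul_mem ha c))
      (((hψ a ha).const_mul c).congr fun k => ?_)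
    rw [pinch_smul, state_smul hφ c (pinch_mem (h.part k) ha)]
  have hstar : ∀ a ∈ M, ψ (star a) = conj (ψ a) := by
    intro a ha
    refine tendsto_nhds_unique (hψ _ (star_mem ha))
      (((Complex.continuous_conj.tendsto _).comp (hψ a ha)).congr fun k => ?_)
    show conj (φ (pinch (P k) a)) = _
    rw [pinch_star (h.part k), state_star hφ (pinch_mem (h.part k) ha)]
  have hre : ∀ a ∈ M, Tendsto (fun k => (φ (pinch (P k) a)).re) atTop (𝓝 (ψ a).re) :=
    fun a ha => (Complex.continuous_re.tendsto _).comp (hψ a ha)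
  have hpos : ∀ a ∈ M, 0 ≤ (ψ (star a * a)).re := fun a ha =>
    ge_of_tendsto' (hre _ (mul_mem (star_mem ha) ha)) fun k => pinch_sq_nonneg hφ (h.part k) ha
  have h1 : ψ 1 = 1 := by
    refine tendsto_nhds_unique (hψ _ (one_mem M)) ?_
    have e : (fun k => φ (pinch (P k) 1)) = fun _ => 1 := by
      funext k
      rw [pinch_one (h.part k), state_one hφ]
    rw [e]
    exact tendsto_const_nhds
  -- domination
  choose ρ hρ hρd using h.dom
  let ρ' : ℕ → (H →L[ℂ] H) → ℂ := fun j => Nat.casesOn j φ ρ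
  let m' : ℕ → ℝ := fun j => Nat.casesOn j 1 fun j => ε / 2 ^ (j + 1)
  have hNP : ∀ j, NPF M (ρ' j) (m' j) := by
    intro j
    rcases j with _ | j
    · obtain ⟨η, h2, h3⟩ := hφ
      exact ⟨η, 1, h2, le_rfl, h3⟩
    · exact hρ j
  have hsm : Summable m' := by
    rw [← summable_nat_add_iff 1]
    have h2 : (fun k : ℕ => m' (k + 1)) = fun k : ℕ => (ε / 2) * (1 / 2 : ℝ) ^ k := by
      funext k
      show ε / 2 ^ (k + 1) = _
      rw [pow_succ, div_pow, one_pow]
      field_simp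
    rw [h2]
    exact (summable_geometric_of_lt_one (by norm_num) (by norm_num)).mul_left _
  obtain ⟨θ, hθ, hθs⟩ := NPF.tsum hNP hsm
  have hbd : ∀ k, ∀ a ∈ M, (φ (pinch (P k) (star a * a))).re ≤
      Real.exp (ε * (1 - 1 / 2 ^ k)) * ∑ j ∈ Finset.range (k + 1), (ρ' j (star a * a)).re := by
    intro k a ha
    induction k with
    | zero =>
      have h2 : pinch (P 0) (star a * a) = star a * a := by
        rw [h.zero, pinch, Finset.sum_singleton, one_mul, mul_one]
      rw [h2]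
      simp [ρ']
    | succ k ih =>
      have hpos' : ∀ j, 0 ≤ (ρ' j (star a * a)).re := fun j => (hNP j).sq_nonneg ha
      have hS : 0 ≤ ∑ j ∈ Finset.range (k + 1), (ρ' j (star a * a)).re :=
        Finset.sum_nonneg fun j _ => hpos' j
      have h2 := hρd k a ha
      have h3 := geom_bound hε k
      have h4 : 1 ≤ Real.exp (ε * (1 - 1 / 2 ^ (k + 1))) := by
        apply Real.one_le_exp
        apply mul_nonneg hε.le
        rw [sub_nonneg, div_le_one (by positivity)]
        exact one_le_pow₀ (by norm_num)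
      have h5 : (ρ k (star a * a)).re = (ρ' (k + 1) (star a * a)).re := rfl
      rw [Finset.sum_range_succ _ (k + 1), mul_add]
      refine h2.trans (add_le_add ?_ ?_)
      · have h6 : 0 ≤ 1 + ε / 2 ^ (k + 1) := by positivity
        refine (mul_le_mul_of_nonneg_left ih h6).trans ?_
        rw [← mul_assoc]
        exact mul_le_mul_of_nonneg_right h3 hS
      · rw [h5]
        exact le_mul_of_one_le_left (hpos' (k + 1)) h4
  have hdom : ∀ a ∈ M, (ψ (star a * a)).re ≤ (((Real.exp ε : ℝ) : ℂ) * θ (star a * a)).re := by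
    intro a ha
    have haa : star a * a ∈ M := mul_mem (star_mem ha) ha
    refine le_of_tendsto' (hre _ haa) fun k => (hbd k a ha).trans ?_
    rw [Complex.re_ofReal_mul]
    have h2 := Complex.reCLM.hasSum (hθs _ haa)
    have hpos' : ∀ j, 0 ≤ (ρ' j (star a * a)).re := fun j => (hNP j).sq_nonneg ha
    have h3 : ∑ j ∈ Finset.range (k + 1), (ρ' j (star a * a)).re ≤ (θ (star a * a)).re :=
      sum_le_hasSum _ (fun j _ => hpos' j) h2
    have h4 : Real.exp (ε * (1 - 1 / 2 ^ k)) ≤ Real.exp ε := by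
      apply Real.exp_le_exp.2
      have : 0 ≤ ε * (1 / 2 ^ k) := by positivity
      linarith [mul_sub ε 1 (1 / 2 ^ k)]
    refine mul_le_mul h4 h3 (Finset.sum_nonneg fun j _ => hpos' j) (Real.exp_pos _).le
  exact normal_of_dom (hθ.smul (Real.exp_pos ε).le) hadd hsmul hstar hpos hdom h1

end Vale.Agent.P132
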