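import Vale.Agent.P132.M723.Masa

/-!
# P132: dense set of states whose centralizer contains a maximal abelian subalgebra
-/

open Filter Topology
open scoped ComplexConjugate InnerProductSpace

namespace Vale.Agent.P132

universe u

variable {H : Type u} [NormedAddCommGroup H] [InnerProductSpace ℂ H] [CompleteSpace H]

theorem masa_main [TopologicalSpace.SeparableSpace H] {M : VonNeumannAlgebra H}
    (hM : IsTypeIIIOneFactor M) {φ : (H →L[ℂ] H) → ℂ} (hφ : IsNormalState M φ)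
    (hf : IsFaithful M φ) {ε : ℝ} (hε : 0 < ε) :
    ∃ ψ : (H →L[ℂ] H) → ℂ, IsNormalState M ψ ∧ IsFaithful M ψ ∧
      (∀ y ∈ M, ‖ψ y - φ y‖ ≤ ε * ‖y‖) ∧
      ∃ A : VonNeumannAlgebra H, (∀ a ∈ A, a ∈ M) ∧
        (∀ x ∈ M, (∀ a ∈ A, a * x = x * a) ↔ x ∈ A) ∧
        ∀ a ∈ A, ∀ y ∈ M, ψ (a * y) = ψ (y * a) := by
  obtain ⟨V, -, hV⟩ := PD.exists_vec hφ
  obtain ⟨x, hxM, hx1, hxd⟩ := exists_dense_ball M V
  obtain ⟨P, h⟩ := exists_seq hM hφ hf hxM hx1 hε
  obtain ⟨ψ, hψ, hlim, hclose⟩ := exists_limit hφ hε h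
  have href : ∀ k l, k ≤ l → Ref (P k) (P l) := by
    intro k l hkl
    induction l, hkl using Nat.le_induction with
    | base => exact Ref.refl (h.part k)
    | succ l _ ih => exact ih.trans (h.ref l)
  have hpp : ∀ k l, ∀ p ∈ P k, ∀ q ∈ P l, p * q = q * p := by
    intro k l p hp q hq
    rcases le_total k l with hkl | hkl
    · exact (href k l hkl).comm (h.part k) (h.part l) hp hq
    · exact ((href l k hkl).comm (h.part l) (h.part k) hq hp).symm
  have hcen : ∀ k, ∀ p ∈ P k, ∀ y ∈ M, ψ (p * y) = ψ (y * p) := by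
    intro k p hp y hy
    have hpM := ((h.part k).pr p hp).mem
    refine tendsto_nhds_unique_of_eventuallyEq (hlim _ (mul_mem hpM hy))
      (hlim _ (mul_mem hy hpM)) ?_
    filter_upwards [eventually_ge_atTop k] with l hl
    rw [pinch_comm (h.part k) (h.part l) (href k l hl) hp]
  have hψf : IsFaithful M ψ := limit_faithful hf h.part hψ hlim hcen
  have hall : ∀ {y : H →L[ℂ] H}, y ∈ M → (∀ k, ∀ p ∈ P k, p * y = y * p) →
      ∀ f : EllTwo H, ∀ τ > 0, ∀ᶠ k in atTop, ‖amp (y - dg φ (P k) y) f‖ ≤ τ :=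
    fun {y} hy hc f τ hτ => diag_conv_all hφ hf h.part hV
      (fun y hy hy1 τ hτ => diag_conv hφ hf hV hxM hx1 hxd h hψ hclose hy hy1 hτ) hy hc f hτ
  have hS : ∀ s ∈ (⋃ k, (P k : Set (H →L[ℂ] H))), star s = s := by
    intro s hs
    obtain ⟨k, hk⟩ := Set.mem_iUnion.1 hs
    exact ((h.part k).pr s hk).sa
  have hmem : ∀ a, a ∈ relComm M _ hS ↔ a ∈ M ∧ ∀ k, ∀ p ∈ P k, p * a = a * p := by
    intro a
    rw [mem_relComm]
    refine and_congr_right fun _ => ⟨fun h1 k p hp => h1 p (Set.mem_iUnion.2 ⟨k, hp⟩),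
      fun h1 s hs => ?_⟩
    obtain ⟨k, hk⟩ := Set.mem_iUnion.1 hs
    exact h1 k s hk
  refine ⟨ψ, hψ, hψf, fun y hy => ?_, relComm M _ hS, fun a ha => ((hmem a).1 ha).1,
    fun y hy => ⟨fun h1 => (hmem y).2 ⟨hy, fun k p hp => ?_⟩, fun hyA a ha => ?_⟩,
    fun a ha y hy => ?_⟩
  · have h1 := hclose y hy 0
    have h2 : pinch (P 0) y = y := by
      rw [h.zero, pinch, Finset.sum_singleton, one_mul, mul_one]
    rw [h2, pow_zero, div_one] at h1
    rwa [norm_sub_rev]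
  · exact h1 p ((hmem p).2 ⟨((h.part k).pr p hp).mem, fun l q hq => hpp l k q hq p hp⟩)
  · obtain ⟨haM, hac⟩ := (hmem a).1 ha
    obtain ⟨-, hyc⟩ := (hmem y).1 hyA
    exact diag_abelian (hall haM hac) hyc
  · obtain ⟨haM, hac⟩ := (hmem a).1 ha
    exact diag_central h.part hψ hcen haM (hall haM hac) hy

end Vale.Agent.P132
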