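import Vale.Agent.P132.M723.Diag

/-!
# P132: the masa
-/

open Filter Topology
open scoped ComplexConjugate InnerProductSpace

namespace Vale.Agent.P132

universe u

variable {H : Type u} [NormedAddCommGroup H] [InnerProductSpace ℂ H] [CompleteSpace H]

omit [CompleteSpace H] in
/-- `ℓ²(ℕ, H)` is separable -/
theorem separable_ellTwo [TopologicalSpace.SeparableSpace H] :
    TopologicalSpace.SeparableSpace (EllTwo H) := by
  rw [← TopologicalSpace.isSeparable_univ_iff]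
  have h1 : TopologicalSpace.IsSeparable (⋃ i : ℕ, Set.range (emb i : H → EllTwo H)) :=
    TopologicalSpace.isSeparable_iUnion.2 fun i =>
      TopologicalSpace.isSeparable_range (emb (H := H) i).continuous
  have h2 := (h1.span (R := ℂ)).closure
  refine h2.mono fun f _ => ?_
  have h3 : HasSum (fun i => emb i (f i)) f := lp.hasSum_single (by norm_num) f
  refine mem_closure_of_tendsto h3 (Eventually.of_forall fun s => ?_)
  exact Submodule.sum_mem _ fun i _ => Submodule.subset_span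
    (Set.mem_iUnion.2 ⟨i, ⟨f i, rfl⟩⟩)

/-- a sequence in the unit ball of `M`, dense for `‖amp (·) V‖` -/
theorem exists_dense_ball [TopologicalSpace.SeparableSpace H] (M : VonNeumannAlgebra H)
    (V : EllTwo H) : ∃ x : ℕ → H →L[ℂ] H, (∀ i, x i ∈ M) ∧ (∀ i, ‖x i‖ ≤ 1) ∧
      ∀ y ∈ M, ‖y‖ ≤ 1 → ∀ δ > 0, ∃ i, ‖amp (y - x i) V‖ ≤ δ := by
  have := separable_ellTwo (H := H)
  have := UniformSpace.secondCountable_of_separable (EllTwo H)
  set S : Set (EllTwo H) := {v | ∃ y ∈ M, ‖y‖ ≤ 1 ∧ amp y V = v} with hS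
  have hne : Nonempty S := ⟨⟨amp 0 V, 0, zero_mem M, by simp, rfl⟩⟩
  obtain ⟨u, hu⟩ := TopologicalSpace.exists_dense_seq S
  have h1 : ∀ i, ∃ y ∈ M, ‖y‖ ≤ 1 ∧ amp y V = u i := fun i => (u i).2
  choose x hxM hx1 hxu using h1
  refine ⟨x, hxM, hx1, fun y hy hy1 δ hδ => ?_⟩
  obtain ⟨i, hi⟩ := Metric.denseRange_iff.1 hu ⟨amp y V, y, hy, hy1, rfl⟩ δ hδ
  refine ⟨i, ?_⟩
  have h2 : amp (y - x i) V = amp y V - amp (x i) V := rfl
  rw [h2, hxu, ← dist_eq_norm]
  exact hi.le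

section conv

variable {M : VonNeumannAlgebra H} {φ : (H →L[ℂ] H) → ℂ} {V : EllTwo H}

theorem pot_le_pinch (hφ : IsNormalState M φ) (hV : ∀ x ∈ M, φ x = ⟪V, amp x V⟫_ℂ)
    {P : Finset (H →L[ℂ] H)} (hP : Part M P) {z : H →L[ℂ] H} (hz : z ∈ M) :
    pot φ P z ≤ (φ (pinch P (star z * z))).re := by
  have hzz : star z * z ∈ M := mul_mem (star_mem hz) hz
  rw [pinch, state_sum hφ P (pinch_term_mem hP hzz), Complex.re_sum, pot]
  refine Finset.sum_le_sum fun p hp => ?_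
  have hpr := hP.pr p hp
  have e : p * (star z * z) * p = star (z * p) * (z * p) := by
    rw [star_mul, hpr.sa]
    simp only [mul_assoc]
  have h0 : 0 ≤ (φ p).re := by
    rw [vec_pr hV hpr, Complex.ofReal_re]; positivity
  have h1 : 0 ≤ ‖φ (p * z * p)‖ ^ 2 / (φ p).re := by positivity
  have h2 : (φ (star (p * z * p) * (p * z * p))).re ≤ (φ (star (z * p) * (z * p))).re := by
    rw [vec_sq hV (pinch_term_mem hP hz p hp), vec_sq hV (mul_mem hz hpr.mem)]
    have h3 : amp (p * z * p) V = amp p (amp (z * p) V) := by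
      rw [mul_assoc, amp_mul]; rfl
    rw [h3]
    exact pow_le_pow_left₀ (norm_nonneg _) (amp_pr_norm hpr _) 2
  rw [pot1, e]
  linarith

/-- elements commuting with all partitions are approximated by their diagonal parts -/
theorem diag_conv (hφ : IsNormalState M φ) (hf : IsFaithful M φ)
    (hV : ∀ x ∈ M, φ x = ⟪V, amp x V⟫_ℂ) {ε : ℝ} {x : ℕ → H →L[ℂ] H}
    (hxM : ∀ i, x i ∈ M) (hx1 : ∀ i, ‖x i‖ ≤ 1)
    (hxd : ∀ y ∈ M, ‖y‖ ≤ 1 → ∀ δ > 0, ∃ i, ‖amp (y - x i) V‖ ≤ δ)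
    {P : ℕ → Finset (H →L[ℂ] H)} (h : PSeq M φ ε x P) {ψ : (H →L[ℂ] H) → ℂ}
    (hψ : IsNormalState M ψ) (hclose : ∀ y ∈ M, ∀ k, ‖φ (pinch (P k) y) - ψ y‖ ≤ ε * ‖y‖ / 2 ^ k)
    {y : H →L[ℂ] H} (hy : y ∈ M) (hy1 : ‖y‖ ≤ 1) {τ : ℝ} (hτ : 0 < τ) :
    ∀ᶠ k in atTop, ‖amp (pinch (P k) y - dg φ (P k) y) V‖ ≤ τ := by
  obtain ⟨W, -, hW⟩ := PD.exists_vec hψ
  obtain ⟨η, hη, hsm⟩ := amp_small hφ hf W 2 (ε := τ / 4) (by positivity)
  obtain ⟨i, hi⟩ := hxd y hy hy1 (Real.sqrt η) (Real.sqrt_pos.2 hη)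
  set z := y - x i with hz
  have hzM : z ∈ M := sub_mem hy (hxM i)
  have hz2 : ‖z‖ ≤ 2 := by
    have := norm_sub_le y (x i)
    have := hx1 i
    linarith
  have hzzM : star z * z ∈ M := mul_mem (star_mem hzM) hzM
  have h1 : (ψ (star z * z)).re ≤ τ ^ 2 / 16 := by
    have h2 : ‖amp z W‖ ≤ τ / 4 := by
      apply hsm z hzM hz2
      have h3 : φ (star z * z) = (((‖amp z V‖ ^ 2 : ℝ)) : ℂ) := by
        rw [hV _ hzzM, amp_mul, amp_star, Cmp.inner_star_mul_self]
        norm_cast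
      rw [h3, Complex.norm_real, Real.norm_of_nonneg (by positivity)]
      calc ‖amp z V‖ ^ 2 ≤ Real.sqrt η ^ 2 := pow_le_pow_left₀ (norm_nonneg _) hi 2
        _ = η := Real.sq_sqrt hη.le
    rw [vec_sq hW hzM]
    calc ‖amp z W‖ ^ 2 ≤ (τ / 4) ^ 2 := pow_le_pow_left₀ (norm_nonneg _) h2 2
      _ = τ ^ 2 / 16 := by ring
  have h2 : ∀ᶠ k in atTop, pot φ (P k) (x i) ≤ (τ / 2) ^ 2 :=
    (h.pot0 i).eventually_le_const (by positivity)
  have h3 : ∀ᶠ k : ℕ in atTop, ε * ‖star z * z‖ / 2 ^ k ≤ τ ^ 2 / 16 := by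
    have h4 : Tendsto (fun k : ℕ => ε * ‖star z * z‖ / 2 ^ k) atTop (𝓝 0) := by
      have h5 : Tendsto (fun k : ℕ => (1 / 2 : ℝ) ^ k) atTop (𝓝 0) :=
        tendsto_pow_atTop_nhds_zero_of_lt_one (by norm_num) (by norm_num)
      have h6 := h5.const_mul (ε * ‖star z * z‖)
      rw [mul_zero] at h6
      refine h6.congr fun k => ?_
      rw [div_pow, one_pow]
      ring
    exact h4.eventually_le_const (by positivity)
  filter_upwards [h2, h3] with k h2 h3
  have hPk := h.part k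
  have e : pinch (P k) y - dg φ (P k) y =
      (pinch (P k) (x i) - dg φ (P k) (x i)) + (pinch (P k) z - dg φ (P k) z) := by
    have e1 : y = x i + z := by rw [hz]; abel
    have e2 : pinch (P k) y = pinch (P k) (x i) + pinch (P k) z := by
      conv_lhs => rw [e1]
      exact pinch_add _ _
    have e3 : dg φ (P k) z = dg φ (P k) y - dg φ (P k) (x i) := by
      rw [hz]; exact dg_sub hφ hPk hy (hxM i)
    rw [e2, e3]; abel
  have h4 : ‖amp (pinch (P k) (x i) - dg φ (P k) (x i)) V‖ ≤ τ / 2 := by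
    refine (pow_le_pow_iff_left₀ (norm_nonneg _) (by positivity) two_ne_zero).1 ?_
    rw [diag_pot hφ hf hV hPk (hxM i)]
    exact h2
  have h5 : ‖amp (pinch (P k) z - dg φ (P k) z) V‖ ≤ τ / 2 := by
    refine (pow_le_pow_iff_left₀ (norm_nonneg _) (by positivity) two_ne_zero).1 ?_
    rw [diag_pot hφ hf hV hPk hzM]
    refine (pot_le_pinch hφ hV hPk hzM).trans ?_
    have h6 := hclose _ hzzM k
    have h7 : (φ (pinch (P k) (star z * z))).re - (ψ (star z * z)).re ≤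
        ‖φ (pinch (P k) (star z * z)) - ψ (star z * z)‖ := by
      rw [← Complex.sub_re]
      exact Complex.re_le_norm _
    nlinarith
  rw [e, amp_add]
  exact (norm_add_le _ _).trans ((add_le_add h4 h5).trans (by linarith))

/-- the same for the norms of all amplified vectors, without normalization -/
theorem diag_conv_all (hφ : IsNormalState M φ) (hf : IsFaithful M φ)
    {P : ℕ → Finset (H →L[ℂ] H)} (hP : ∀ k, Part M (P k))
    (hV : ∀ x ∈ M, φ x = ⟪V, amp x V⟫_ℂ)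
    (hconv : ∀ y ∈ M, ‖y‖ ≤ 1 → ∀ τ > 0,
      ∀ᶠ k in atTop, ‖amp (pinch (P k) y - dg φ (P k) y) V‖ ≤ τ)
    {y : H →L[ℂ] H} (hy : y ∈ M) (hc : ∀ k, ∀ p ∈ P k, p * y = y * p) (f : EllTwo H)
    {τ : ℝ} (hτ : 0 < τ) : ∀ᶠ k in atTop, ‖amp (y - dg φ (P k) y) f‖ ≤ τ := by
  set c : ℝ := ‖y‖ + 1 with hcdef
  have hc0 : 0 < c := by positivity
  set y' : H →L[ℂ] H := ((c⁻¹ : ℝ) : ℂ) • y with hy'
  have hy'M : y' ∈ M := M.toStarSubalgebra.smul_mem hy _
  have hy'1 : ‖y'‖ ≤ 1 := by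
    rw [hy', norm_smul, Complex.norm_real, Real.norm_of_nonneg (by positivity),
      inv_mul_le_iff₀ hc0]
    linarith
  have hy'c : ∀ k, ∀ p ∈ P k, p * y' = y' * p := fun k p hp => by
    rw [hy', mul_smul_comm, smul_mul_assoc, hc k p hp]
  obtain ⟨η, hη, hsm⟩ := amp_small hφ hf f 2 (ε := τ / c) (by positivity)
  filter_upwards [hconv y' hy'M hy'1 (Real.sqrt η) (Real.sqrt_pos.2 hη)] with k hk
  rw [pinch_fix (hP k) (hy'c k)] at hk
  set z := y' - dg φ (P k) y' with hz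
  have hzM : z ∈ M := sub_mem hy'M (dg_mem (hP k) y')
  have hz2 : ‖z‖ ≤ 2 := by
    have h1 := norm_sub_le y' (dg φ (P k) y')
    have h2 := dg_norm_le hφ (hP k) hy'M
    linarith
  have h3 : ‖amp z f‖ ≤ τ / c := by
    apply hsm z hzM hz2
    have h3 : φ (star z * z) = (((‖amp z V‖ ^ 2 : ℝ)) : ℂ) := by
      rw [hV _ (mul_mem (star_mem hzM) hzM), amp_mul, amp_star, Cmp.inner_star_mul_self]
      norm_cast
    rw [h3, Complex.norm_real, Real.norm_of_nonneg (by positivity)]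
    calc ‖amp z V‖ ^ 2 ≤ Real.sqrt η ^ 2 := pow_le_pow_left₀ (norm_nonneg _) hk 2
      _ = η := Real.sq_sqrt hη.le
  have h4 : y - dg φ (P k) y = (c : ℂ) • z := by
    have h5 : (c : ℂ) • y' = y := by
      rw [hy', smul_smul, ← Complex.ofReal_mul, mul_inv_cancel₀ hc0.ne', Complex.ofReal_one,
        one_smul]
    have h6 : dg φ (P k) y = (c : ℂ) • dg φ (P k) y' := by
      rw [← dg_smul hφ (hP k) _ hy'M, h5]
    rw [hz, smul_sub, h5, h6]
  rw [h4, amp_smul]
  show ‖(c : ℂ) • amp z f‖ ≤ τ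
  rw [norm_smul, Complex.norm_real, Real.norm_of_nonneg hc0.le]
  calc c * ‖amp z f‖ ≤ c * (τ / c) := mul_le_mul_of_nonneg_left h3 hc0.le
    _ = τ := by field_simp

/-- two elements commuting with all partitions commute -/
theorem diag_abelian {P : ℕ → Finset (H →L[ℂ] H)}
    {x y : H →L[ℂ] H}
    (hx : ∀ f : EllTwo H, ∀ τ > 0, ∀ᶠ k in atTop, ‖amp (x - dg φ (P k) x) f‖ ≤ τ)
    (hyc : ∀ k, ∀ p ∈ P k, p * y = y * p) : x * y = y * x := by
  apply amp_inj
  ext1 f
  rw [← sub_eq_zero]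
  by_contra hne
  set d : ℝ := ‖amp (x * y) f - amp (y * x) f‖ with hd
  have hd0 : 0 < d := norm_pos_iff.2 hne
  have h1 := hx (amp y f) (d / 4) (by positivity)
  have h2 := hx f (d / (4 * (‖y‖ + 1))) (by positivity)
  obtain ⟨k, h1, h2⟩ := (h1.and h2).exists
  set z := x - dg φ (P k) x with hz
  have e : x * y - y * x = z * y - y * z := by
    have h3 := dg_comm (φ := φ) (hyc k) x
    rw [hz, sub_mul, mul_sub, h3]
    abel
  have e2 : amp (x * y) f - amp (y * x) f = amp z (amp y f) - amp y (amp z f) := by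
    have h3 := congrArg (fun T : H →L[ℂ] H => amp T f) e
    exact h3
  have h3 : ‖amp (x * y) f - amp (y * x) f‖ ≤ d / 4 + d / 4 := by
    rw [e2]
    refine (norm_sub_le _ _).trans (add_le_add h1 ?_)
    refine ((amp y).le_opNorm _).trans ?_
    calc ‖amp y‖ * ‖amp z f‖ ≤ (‖y‖ + 1) * (d / (4 * (‖y‖ + 1))) := by
          gcongr
          exact (norm_amp_le y).trans (by linarith)
      _ = d / 4 := by field_simp
  rw [← hd] at h3
  linarith

/-- they belong to the centralizer -/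
theorem diag_central {P : ℕ → Finset (H →L[ℂ] H)} (hP : ∀ k, Part M (P k))
    {ψ : (H →L[ℂ] H) → ℂ} (hψ : IsNormalState M ψ)
    (hcen : ∀ k, ∀ p ∈ P k, ∀ y ∈ M, ψ (p * y) = ψ (y * p)) {x : H →L[ℂ] H} (hxM : x ∈ M)
    (hx : ∀ f : EllTwo H, ∀ τ > 0, ∀ᶠ k in atTop, ‖amp (x - dg φ (P k) x) f‖ ≤ τ)
    {y : H →L[ℂ] H} (hy : y ∈ M) : ψ (x * y) = ψ (y * x) := by
  obtain ⟨W, hW1, hW⟩ := PD.exists_vec hψ
  rw [← sub_eq_zero]
  by_contra hne
  set d : ℝ := ‖ψ (x * y) - ψ (y * x)‖ with hd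
  have hd0 : 0 < d := norm_pos_iff.2 hne
  have h1 := hx (amp y W) (d / 4) (by positivity)
  have h2 := hx W (d / (4 * (‖y‖ + 1))) (by positivity)
  obtain ⟨k, h1, h2⟩ := (h1.and h2).exists
  have haM : dg φ (P k) x ∈ M := dg_mem (hP k) x
  set z := x - dg φ (P k) x with hz
  have hzM : z ∈ M := sub_mem hxM haM
  have hdg : ψ (dg φ (P k) x * y) = ψ (y * dg φ (P k) x) := by
    rw [dg, Finset.sum_mul, Finset.mul_sum,
      state_sum hψ _ fun p hp => mul_mem (M.toStarSubalgebra.smul_mem ((hP k).pr p hp).mem _) hy,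
      state_sum hψ _ fun p hp => mul_mem hy (M.toStarSubalgebra.smul_mem ((hP k).pr p hp).mem _)]
    refine Finset.sum_congr rfl fun p hp => ?_
    have hpM := ((hP k).pr p hp).mem
    rw [smul_mul_assoc, mul_smul_comm, state_smul hψ _ (mul_mem hpM hy),
      state_smul hψ _ (mul_mem hy hpM), hcen k p hp y hy]
  have e : ψ (x * y) - ψ (y * x) = ⟪W, amp z (amp y W)⟫_ℂ - ⟪W, amp y (amp z W)⟫_ℂ := by
    have e1 : x = z + dg φ (P k) x := by rw [hz]; abel
    have e2 : ψ (x * y) = ψ (z * y) + ψ (dg φ (P k) x * y) := by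
      rw [← state_add hψ (mul_mem hzM hy) (mul_mem haM hy), ← add_mul, ← e1]
    have e3 : ψ (y * x) = ψ (y * z) + ψ (y * dg φ (P k) x) := by
      rw [← state_add hψ (mul_mem hy hzM) (mul_mem hy haM), ← mul_add, ← e1]
    rw [e2, e3, hdg, hW _ (mul_mem hzM hy), hW _ (mul_mem hy hzM), amp_mul, amp_mul]
    simp only [mul_apply_eq_comp]
    ring
  have h3 : ‖ψ (x * y) - ψ (y * x)‖ ≤ d / 4 + d / 4 := by
    rw [e]
    refine (norm_sub_le _ _).trans (add_le_add ?_ ?_)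
    · refine (norm_inner_le_norm _ _).trans ?_
      rw [hW1, one_mul]
      exact h1
    · refine (norm_inner_le_norm _ _).trans ?_
      rw [hW1, one_mul]
      refine ((amp y).le_opNorm _).trans ?_
      calc ‖amp y‖ * ‖amp z W‖ ≤ (‖y‖ + 1) * (d / (4 * (‖y‖ + 1))) := by
            gcongr
            exact (norm_amp_le y).trans (by linarith)
        _ = d / 4 := by field_simp
  rw [← hd] at h3
  linarith

end conv

/-- the relative commutant of a self-adjoint set -/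
noncomputable def relComm (M : VonNeumannAlgebra H) (S : Set (H →L[ℂ] H))
    (hS : ∀ s ∈ S, star s = s) : VonNeumannAlgebra H where
  carrier := Set.centralizer ((M.commutant : Set (H →L[ℂ] H)) ∪ S)
  mul_mem' := Set.mul_mem_centralizer
  one_mem' := Set.one_mem_centralizer
  add_mem' := Set.add_mem_centralizer
  zero_mem' := Set.zero_mem_centralizer
  algebraMap_mem' := fun c => fun s _ => (Algebra.commutes c s).symm
  star_mem' := by
    intro a ha s hs
    have h1 : star s ∈ (M.commutant : Set (H →L[ℂ] H)) ∪ S := by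
      rcases hs with hs | hs
      · exact Or.inl (star_mem (S := VonNeumannAlgebra H) hs)
      · exact Or.inr (by rw [hS s hs]; exact hs)
    have h2 := congrArg star (ha _ h1)
    rw [star_mul, star_mul, star_star] at h2
    exact h2.symm
  centralizer_centralizer' := Set.centralizer_centralizer_centralizer _

theorem mem_relComm {M : VonNeumannAlgebra H} {S : Set (H →L[ℂ] H)}
    {hS : ∀ s ∈ S, star s = s} {a : H →L[ℂ] H} :
    a ∈ relComm M S hS ↔ a ∈ M ∧ ∀ s ∈ S, s * a = a * s := by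
  constructor
  · intro h
    refine ⟨?_, fun s hs => h s (Or.inr hs)⟩
    rw [← M.commutant_commutant, VonNeumannAlgebra.mem_commutant_iff]
    intro y hy
    exact h y (Or.inl hy)
  · rintro ⟨h1, h2⟩ s (hs | hs)
    · exact (VonNeumannAlgebra.mem_commutant_iff.1 hs a h1).symm
    · exact h2 s hs

end Vale.Agent.P132
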