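import Vale.Agent.P132.M723.Vec
import Vale.Agent.P132.H723.AvgMain

/-!
# P132: finite partitions, pinchings, the potential; dominating normal functionals
-/

open Filter Topology
open scoped ComplexConjugate InnerProductSpace BoundedContinuousFunction

namespace Vale.Agent.P132

universe u

variable {H : Type u} [NormedAddCommGroup H] [InnerProductSpace ℂ H] [CompleteSpace H]

/-- normal positive functional on `M` of mass at most `m` -/
def NPF (M : VonNeumannAlgebra H) (ρ : (H →L[ℂ] H) → ℂ) (m : ℝ) : Prop :=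
  ∃ (η : ℕ → H) (s : ℝ), HasSum (fun i => ‖η i‖ ^ 2) s ∧ s ≤ m ∧
    ∀ x ∈ M, HasSum (fun i => ⟪η i, x (η i)⟫_ℂ) (ρ x)

/-- finite partitions of unity by nonzero projections -/
structure Part (M : VonNeumannAlgebra H) (P : Finset (H →L[ℂ] H)) : Prop where
  pr : ∀ p ∈ P, Cmp.IsPr M p
  ne : ∀ p ∈ P, p ≠ 0
  orth : ∀ p ∈ P, ∀ q ∈ P, p ≠ q → p * q = 0
  sum : ∑ p ∈ P, p = 1

/-- the pinching by `P` -/
noncomputable def pinch (P : Finset (H →L[ℂ] H)) (x : H →L[ℂ] H) : H →L[ℂ] H :=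
  ∑ p ∈ P, p * x * p

/-- the contribution of one block -/
noncomputable def pot1 (φ : (H →L[ℂ] H) → ℂ) (p x : H →L[ℂ] H) : ℝ :=
  (φ (star (p * x * p) * (p * x * p))).re - ‖φ (p * x * p)‖ ^ 2 / (φ p).re

/-- the potential of `x` with respect to the partition -/
noncomputable def pot (φ : (H →L[ℂ] H) → ℂ) (P : Finset (H →L[ℂ] H)) (x : H →L[ℂ] H) : ℝ :=
  ∑ p ∈ P, pot1 φ p x

/-- countable sums of normal positive functionals -/
theorem NPF.tsum {M : VonNeumannAlgebra H} {ρ : ℕ → (H →L[ℂ] H) → ℂ} {m : ℕ → ℝ}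
    (h : ∀ k, NPF M (ρ k) (m k)) (hm : Summable m) :
    ∃ θ : (H →L[ℂ] H) → ℂ, NPF M θ (∑' k, m k) ∧ ∀ x ∈ M, HasSum (fun k => ρ k x) (θ x) := by
  choose η s hs hsm hη using h
  have hs0 : ∀ k, 0 ≤ s k := fun k => (hs k).nonneg fun i => by positivity
  have hssum : Summable s := Summable.of_nonneg_of_le hs0 hsm hm
  have hg : Summable fun p : ℕ × ℕ => ‖η p.1 p.2‖ ^ 2 := by
    rw [summable_prod_of_nonneg fun p => by positivity]
    refine ⟨fun k => (hs k).summable, ?_⟩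
    have : (fun k => ∑' i, ‖η k i‖ ^ 2) = s := by
      funext k; exact (hs k).tsum_eq
    simpa only [this] using hssum
  have hgs : HasSum (fun p : ℕ × ℕ => ‖η p.1 p.2‖ ^ 2) (∑' k, s k) := by
    have h1 := hg.hasSum
    have h2 := h1.prod_fiberwise fun k => hs k
    rw [h2.tsum_eq]; exact h1
  have hx : ∀ x ∈ M, Summable fun p : ℕ × ℕ => ⟪η p.1 p.2, x (η p.1 p.2)⟫_ℂ := by
    intro x _
    refine Summable.of_norm_bounded (g := fun p : ℕ × ℕ => ‖x‖ * ‖η p.1 p.2‖ ^ 2)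
      (hg.mul_left _) fun p => ?_
    refine (norm_inner_le_norm _ _).trans ?_
    have := x.le_opNorm (η p.1 p.2)
    have h2 := norm_nonneg (η p.1 p.2)
    nlinarith
  refine ⟨fun x => ∑' p : ℕ × ℕ, ⟪η p.1 p.2, x (η p.1 p.2)⟫_ℂ, ?_, ?_⟩
  · refine ⟨fun i => η (Nat.unpair i).1 (Nat.unpair i).2, ∑' k, s k, ?_, ?_, ?_⟩
    · exact (Nat.pairEquiv.symm.hasSum_iff (f := fun p : ℕ × ℕ => ‖η p.1 p.2‖ ^ 2)).2 hgs
    · exact hssum.tsum_le_tsum hsm hm
    · intro x hxM
      exact (Nat.pairEquiv.symm.hasSum_iff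
        (f := fun p : ℕ × ℕ => ⟪η p.1 p.2, x (η p.1 p.2)⟫_ℂ)).2 (hx x hxM).hasSum
  · intro x hxM
    exact (hx x hxM).hasSum.prod_fiberwise fun k => hη k x hxM

theorem NPF.zero (M : VonNeumannAlgebra H) : NPF M (fun _ => 0) 0 :=
  ⟨fun _ => 0, 0, by simp, le_rfl, fun x _ => by simp⟩

theorem NPF.mono {M : VonNeumannAlgebra H} {ρ : (H →L[ℂ] H) → ℂ} {m m' : ℝ} (h : NPF M ρ m)
    (hm : m ≤ m') : NPF M ρ m' := by
  obtain ⟨η, s, h1, h2, h3⟩ := h
  exact ⟨η, s, h1, h2.trans hm, h3⟩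

theorem NPF.smul {M : VonNeumannAlgebra H} {ρ : (H →L[ℂ] H) → ℂ} {m : ℝ} (h : NPF M ρ m)
    {c : ℝ} (hc : 0 ≤ c) : NPF M (fun x => c * ρ x) (c * m) := by
  obtain ⟨η, s, h1, h2, h3⟩ := h
  refine ⟨fun i => ((Real.sqrt c : ℝ) : ℂ) • η i, c * s, ?_, mul_le_mul_of_nonneg_left h2 hc, ?_⟩
  · have e : ∀ i, ‖((Real.sqrt c : ℝ) : ℂ) • η i‖ ^ 2 = c * ‖η i‖ ^ 2 := by
      intro i
      rw [norm_smul, mul_pow, Complex.norm_real, Real.norm_of_nonneg (Real.sqrt_nonneg c),
        Real.sq_sqrt hc]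
    simp only [e]
    exact h1.mul_left c
  · intro x hx
    have e : ∀ i, ⟪((Real.sqrt c : ℝ) : ℂ) • η i, x (((Real.sqrt c : ℝ) : ℂ) • η i)⟫_ℂ =
        c * ⟪η i, x (η i)⟫_ℂ := by
      intro i
      rw [map_smul, inner_smul_left, inner_smul_right, Complex.conj_ofReal, ← mul_assoc,
        ← Complex.ofReal_mul, Real.mul_self_sqrt hc]
    simp only [e]
    exact (h3 x hx).mul_left _

/-- finite sums -/
theorem NPF.sum {M : VonNeumannAlgebra H} {κ : Type*} (s : Finset κ)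
    {ρ : κ → (H →L[ℂ] H) → ℂ} {m : κ → ℝ} (h : ∀ k ∈ s, NPF M (ρ k) (m k)) :
    ∃ θ : (H →L[ℂ] H) → ℂ, NPF M θ (∑ k ∈ s, m k) ∧ ∀ x ∈ M, θ x = ∑ k ∈ s, ρ k x := by
  classical
  induction s using Finset.induction_on with
  | empty => exact ⟨fun _ => 0, by simpa using NPF.zero M, by simp⟩
  | insert a s ha ih =>
    obtain ⟨θ, h1, h2⟩ := ih fun k hk => h k (Finset.mem_insert_of_mem hk)
    have h3 : ∀ k : ℕ, NPF M (if k = 0 then ρ a else if k = 1 then θ else fun _ => 0)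
        (if k = 0 then m a else if k = 1 then ∑ k ∈ s, m k else 0) := by
      intro k
      rcases k with _ | _ | k
      · simpa using h a (Finset.mem_insert_self a s)
      · simpa using h1
      · simpa using NPF.zero M
    have hsum : HasSum (fun k : ℕ => if k = 0 then m a else if k = 1 then ∑ k ∈ s, m k else 0)
        (m a + ∑ k ∈ s, m k) := by
      have : HasSum (fun k : ℕ => if k = 0 then m a else if k = 1 then ∑ k ∈ s, m k else 0)
          (∑ k ∈ Finset.range 2, if k = 0 then m a else if k = 1 then ∑ k ∈ s, m k else 0) :=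
        hasSum_sum_of_ne_finset_zero (by
          intro b hb
          have : 1 < b := by simpa using hb
          have h4 : b ≠ 0 := by omega
          have h5 : b ≠ 1 := by omega
          simp [h4, h5])
      simpa [Finset.sum_range_succ] using this
    obtain ⟨θ', h4, h5⟩ := NPF.tsum h3 hsum.summable
    rw [hsum.tsum_eq] at h4
    refine ⟨θ', by rw [Finset.sum_insert ha]; exact h4, fun x hx => ?_⟩
    have h6 := h5 x hx
    have h7 : HasSum (fun k : ℕ => (if k = 0 then ρ a else if k = 1 then θ else fun _ => 0) x)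
        (∑ k ∈ Finset.range 2, (if k = 0 then ρ a else if k = 1 then θ else fun _ => 0) x) :=
      hasSum_sum_of_ne_finset_zero (by
          intro b hb
          have : 1 < b := by simpa using hb
          have h4 : b ≠ 0 := by omega
          have h5 : b ≠ 1 := by omega
          simp [h4, h5])
    have h8 := h6.unique h7
    rw [h8, Finset.sum_insert ha, Finset.sum_range_succ, Finset.sum_range_succ,
      Finset.sum_range_zero]
    simp [h2 x hx]

/-- vector functionals of the standard representation -/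
theorem StdRep.npf {M : VonNeumannAlgebra H} {φ : (H →L[ℂ] H) → ℂ} {K : Type u}
    [NormedAddCommGroup K] [InnerProductSpace ℂ K] [CompleteSpace K] (R : StdRep M φ K) (c : K) :
    NPF M (fun x => ⟪c, R.π x c⟫_ℂ) (‖c‖ ^ 2) := by
  rcases eq_or_ne c 0 with h0 | h0
  · subst h0
    exact ⟨fun _ => 0, 0, by simp, by simp, fun x _ => by simp⟩
  · have hc : 0 < ‖c‖ := norm_pos_iff.2 h0
    set d : K := ((‖c‖⁻¹ : ℝ) : ℂ) • c with hd
    have hd1 : ‖d‖ = 1 := by
      rw [hd, norm_smul, Complex.norm_real, norm_inv, norm_norm, inv_mul_cancel₀ hc.ne']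
    obtain ⟨f, hf1, hf⟩ := R.normal d hd1
    have h1 : NPF M (fun x => ⟪d, R.π x d⟫_ℂ) 1 := ⟨f, 1, hf1, le_rfl, hf⟩
    have h2 := h1.smul (c := ‖c‖ ^ 2) (by positivity)
    obtain ⟨η, s, h3, h4, h5⟩ := h2
    refine ⟨η, s, h3, by simpa using h4, fun x hx => ?_⟩
    have h6 := h5 x hx
    have e : ((‖c‖ ^ 2 : ℝ) : ℂ) * ⟪d, R.π x d⟫_ℂ = ⟪c, R.π x c⟫_ℂ := by
      rw [hd, _root_.map_smul, inner_smul_left, inner_smul_right, Complex.conj_ofReal]
      have h7 : (‖c‖ : ℂ) ≠ 0 := by exact_mod_cast hc.ne'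
      push_cast
      field_simp
    show HasSum (fun i => ⟪η i, x (η i)⟫_ℂ) (⟪c, R.π x c⟫_ℂ)
    rw [← e]
    exact h6

end Vale.Agent.P132
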