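import Vale.Agent.P132.M723.Block

/-!
# P132: the refinement step
-/

open Filter Topology
open scoped ComplexConjugate InnerProductSpace BoundedContinuousFunction

namespace Vale.Agent.P132

universe u

variable {H : Type u} [NormedAddCommGroup H] [InnerProductSpace ℂ H] [CompleteSpace H]

/-- `P'` refines `P` -/
def Ref (P P' : Finset (H →L[ℂ] H)) : Prop := ∀ r ∈ P', ∃ p ∈ P, p * r = r

theorem Ref.refl {M : VonNeumannAlgebra H} {P : Finset (H →L[ℂ] H)} (hP : Part M P) : Ref P P :=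
  fun r hr => ⟨r, hr, (hP.pr r hr).idem⟩

omit [CompleteSpace H] in
theorem Ref.trans {P P' P'' : Finset (H →L[ℂ] H)} (h : Ref P P') (h' : Ref P' P'') :
    Ref P P'' := by
  intro r hr
  obtain ⟨r', hr', h1⟩ := h' r hr
  obtain ⟨p, hp, h2⟩ := h r' hr'
  exact ⟨p, hp, by rw [← h1, ← mul_assoc, h2]⟩

theorem NPF.conj {M : VonNeumannAlgebra H} {ρ : (H →L[ℂ] H) → ℂ} {m : ℝ} (h : NPF M ρ m)
    {w : H →L[ℂ] H} (hw : w ∈ M) (hw1 : star w * w = 1) :
    NPF M (fun x => ρ (star w * x * w)) m := by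
  obtain ⟨η, s, h1, h2, h3⟩ := h
  refine ⟨fun i => w (η i), s, ?_, h2, fun x hx => ?_⟩
  · have e : ∀ i, ‖w (η i)‖ ^ 2 = ‖η i‖ ^ 2 := by
      intro i
      have h4 := Cmp.inner_star_mul_self w (η i)
      rw [hw1] at h4
      have h5 : ⟪η i, (1 : H →L[ℂ] H) (η i)⟫_ℂ = (‖η i‖ : ℂ) ^ 2 := by
        show ⟪η i, η i⟫_ℂ = _
        rw [inner_self_eq_norm_sq_to_K]; rfl
      rw [h5] at h4
      exact_mod_cast h4.symm
    simp only [e]
    exact h1
  · have h4 := h3 _ (mul_mem (mul_mem (star_mem hw) hx) hw)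
    have e : (fun i => ⟪w (η i), x (w (η i))⟫_ℂ) =
        fun i => ⟪η i, (star w * x * w) (η i)⟫_ℂ := by
      funext i
      exact (BC.inner_star' w _ _).symm
    rw [e]
    exact h4

/-- states of corners -/
theorem corner_state {M : VonNeumannAlgebra H} {φ : (H →L[ℂ] H) → ℂ} (hφ : IsNormalState M φ)
    {w : H →L[ℂ] H} (hw : w ∈ M) {m : ℝ} (hm : 0 < m) (hφw : φ (w * star w) = m) :
    IsNormalState M (fun y => (m : ℂ)⁻¹ * φ (w * y * star w)) := by
  obtain ⟨η, hη1, hη⟩ := hφ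
  set c : ℝ := Real.sqrt m⁻¹ with hc
  have hcc : c * c = m⁻¹ := Real.mul_self_sqrt (by positivity)
  have key : ∀ y ∈ M, ∀ i, ⟪(c : ℂ) • star w (η i), y ((c : ℂ) • star w (η i))⟫_ℂ =
      (m : ℂ)⁻¹ * ⟪η i, (w * y * star w) (η i)⟫_ℂ := by
    intro y _ i
    rw [map_smul, inner_smul_left, inner_smul_right, Complex.conj_ofReal, ← mul_assoc,
      ← Complex.ofReal_mul, hcc, BC.inner_star]
    push_cast
    rfl
  refine ⟨fun i => (c : ℂ) • star w (η i), ?_, fun y hy => ?_⟩
  · have h1 := (hη _ (mul_mem (mul_mem hw (one_mem M)) (star_mem hw))).mul_left ((m : ℂ)⁻¹)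
    have h2 : ∀ i, (((‖(c : ℂ) • star w (η i)‖ ^ 2 : ℝ)) : ℂ) =
        (m : ℂ)⁻¹ * ⟪η i, (w * 1 * star w) (η i)⟫_ℂ := by
      intro i
      rw [← key 1 (one_mem M) i]
      show _ = ⟪(c : ℂ) • star w (η i), (c : ℂ) • star w (η i)⟫_ℂ
      rw [inner_self_eq_norm_sq_to_K]
      push_cast
      rfl
    simp only [← h2] at h1
    rw [mul_one, hφw, inv_mul_cancel₀ (by exact_mod_cast hm.ne')] at h1
    have h3 : ((1 : ℝ) : ℂ) = 1 := by norm_num
    rw [← h3] at h1
    exact Complex.hasSum_ofReal.1 h1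
  · simp only [key y hy]
    exact (hη _ (mul_mem (mul_mem hw hy) (star_mem hw))).mul_left _

theorem corner_faithful {M : VonNeumannAlgebra H} {φ : (H →L[ℂ] H) → ℂ} (hf : IsFaithful M φ)
    {w : H →L[ℂ] H} (hw : w ∈ M) (hw1 : star w * w = 1) {m : ℝ} (hm : 0 < m) :
    IsFaithful M (fun y => (m : ℂ)⁻¹ * φ (w * y * star w)) := by
  intro y hy h0
  have h1 : (m : ℂ)⁻¹ ≠ 0 := by
    apply inv_ne_zero; exact_mod_cast hm.ne'
  have h2 : φ (w * (star y * y) * star w) = 0 := (mul_eq_zero.1 h0).resolve_left h1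
  have h3 : w * (star y * y) * star w = star (y * star w) * (y * star w) := by
    rw [star_mul, star_star]
    simp only [mul_assoc]
  rw [h3] at h2
  have h4 := hf _ (mul_mem hy (star_mem hw)) h2
  calc y = y * (star w * w) := by rw [hw1, mul_one]
    _ = (y * star w) * w := by rw [mul_assoc]
    _ = 0 := by rw [h4, zero_mul]

theorem Part.phi_pos {M : VonNeumannAlgebra H} {φ : (H →L[ℂ] H) → ℂ} (hφ : IsNormalState M φ)
    (hf : IsFaithful M φ) {p : H →L[ℂ] H} (hp : Cmp.IsPr M p) (h0 : p ≠ 0) :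
    0 < (φ p).re ∧ φ p = ((φ p).re : ℂ) := by
  obtain ⟨V, -, hV⟩ := PD.exists_vec hφ
  have h1 : φ p = ((‖amp p V‖ ^ 2 : ℝ) : ℂ) := by
    have h2 : φ p = φ (star p * p) := by rw [hp.sa, hp.idem]
    rw [h2, hV _ (mul_mem (star_mem hp.mem) hp.mem), amp_mul, amp_star, Cmp.inner_star_mul_self]
    norm_cast
  have h2 : (φ p).re = ‖amp p V‖ ^ 2 := by rw [h1, Complex.ofReal_re]
  refine ⟨?_, by rw [h2, h1]⟩
  rw [h2]
  have h3 : ‖amp p V‖ ^ 2 ≠ 0 := by
    intro h4
    apply h0
    apply hf p hp.mem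
    rw [hp.sa, hp.idem, h1, h4]
    simp
  positivity

/-- one block, transported to the corner -/
theorem block_corner {M : VonNeumannAlgebra H} (hM : IsTypeIIIOneFactor M)
    {φ : (H →L[ℂ] H) → ℂ} (hφ : IsNormalState M φ) (hf : IsFaithful M φ)
    {ι : Type} [Fintype ι] {x : ι → H →L[ℂ] H} (hx : ∀ j, x j ∈ M) {ε : ℝ} (hε : 0 < ε)
    {p : H →L[ℂ] H} (hp : Cmp.IsPr M p) (h0 : p ≠ 0) :
    ∃ (w : H →L[ℂ] H) (Q : Finset (H →L[ℂ] H)) (ρ : (H →L[ℂ] H) → ℂ), w ∈ M ∧ star w * w = 1 ∧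
      w * star w = p ∧ Part M Q ∧
      (∀ y ∈ M, ‖φ (w * pinch Q (star w * y * w) * star w) - φ (p * y * p)‖ ≤
        (φ p).re * (ε * ‖y‖)) ∧
      NPF M ρ ((φ p).re * ε) ∧
      (∀ y ∈ M, (φ (w * pinch Q (star w * (star y * y) * w) * star w)).re ≤
        (1 + ε) * (φ (p * (star y * y) * p)).re + (ρ (star y * y)).re) ∧
      ∑ j, ∑ q ∈ Q, pot1 φ (w * q * star w) (x j) ≤
        7 / 8 * ∑ j, pot1 φ p (x j) + (φ p).re * ε := by
  have hS : ∀ t : ℝ, 0 < t → t ∈ connesS M := fun t ht =>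
    connesInvariant_subset (by rw [hM.connes]; exact ht.le)
  have hIII := isTypeIII_of_connesS hM.factor hS hφ hf
  obtain ⟨v, hvM, hv1, hv2⟩ := isTypeIII_of_state hM.factor hφ hf hIII p hp.mem hp.sa hp.idem h0
  obtain ⟨hm, hφp⟩ := Part.phi_pos hφ hf hp h0
  set m : ℝ := (φ p).re with hmdef
  set w : H →L[ℂ] H := star v with hwdef
  have hw : w ∈ M := star_mem hvM
  have hw1 : star w * w = 1 := by rw [hwdef, star_star, hv2]
  have hw2 : w * star w = p := by rw [hwdef, star_star, hv1]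
  have hmC : (m : ℂ) ≠ 0 := by exact_mod_cast hm.ne'
  set ψ : (H →L[ℂ] H) → ℂ := fun y => (m : ℂ)⁻¹ * φ (w * y * star w) with hψdef
  have hψ : IsNormalState M ψ := corner_state hφ hw hm (by rw [hw2, hφp])
  have hψf : IsFaithful M ψ := corner_faithful hf hw hw1 hm
  have hφψ : ∀ y, φ (w * y * star w) = m * ψ y := by
    intro y
    rw [hψdef]
    show _ = (m : ℂ) * ((m : ℂ)⁻¹ * φ (w * y * star w))
    rw [← mul_assoc, mul_inv_cancel₀ hmC, one_mul]
  have hpw : p * w = w := by rw [← hw2, mul_assoc, hw1, mul_one]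
  have hwp : star w * p = star w := by rw [← hw2, ← mul_assoc, hw1, one_mul]
  have hpyp : ∀ y : H →L[ℂ] H, w * (star w * y * w) * star w = p * y * p := by
    intro y
    rw [← hw2]
    simp only [mul_assoc]
  obtain ⟨Q, hQ, hclose, ⟨ρ, hρ, hdom⟩, hpot⟩ := block hM hψ hψf
    (x := fun j => star w * x j * w) (fun j => mul_mem (mul_mem (star_mem hw) (hx j)) hw) hε
  have hn1 : ‖w‖ ≤ 1 := by
    have h1 : ‖w‖ * ‖w‖ = ‖(1 : H →L[ℂ] H)‖ := by
      rw [← CStarRing.norm_star_mul_self, hw1]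
    have h2 : ‖(1 : H →L[ℂ] H)‖ ≤ 1 := ContinuousLinearMap.norm_id_le
    nlinarith [norm_nonneg w]
  refine ⟨w, Q, fun x => m * ρ (star w * x * w), hw, hw1, hw2, hQ, fun y hy => ?_, ?_,
    fun y hy => ?_, ?_⟩
  · rw [← hpyp, hφψ, hφψ, ← mul_sub, norm_mul, Complex.norm_real, Real.norm_of_nonneg hm.le]
    apply mul_le_mul_of_nonneg_left _ hm.le
    refine (hclose _ (mul_mem (mul_mem (star_mem hw) hy) hw)).trans ?_
    apply mul_le_mul_of_nonneg_left _ hε.le
    calc ‖star w * y * w‖ ≤ ‖star w‖ * ‖y‖ * ‖w‖ :=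
          (norm_mul_le _ _).trans (mul_le_mul_of_nonneg_right (norm_mul_le _ _) (norm_nonneg _))
      _ ≤ 1 * ‖y‖ * 1 := by rw [norm_star]; gcongr
      _ = ‖y‖ := by ring
  · exact (hρ.conj hw hw1).smul hm.le
  · have h1 := hdom (y * w) (mul_mem hy hw)
    have h2 : star (y * w) * (y * w) = star w * (star y * y) * w := by
      rw [star_mul]; simp only [mul_assoc]
    rw [h2] at h1
    rw [← hpyp, hφψ, hφψ, Complex.re_ofReal_mul, Complex.re_ofReal_mul, Complex.re_ofReal_mul]
    have h3 := mul_le_mul_of_nonneg_left h1 hm.le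
    linarith
  · have h1 : ∀ q ∈ Q, ∀ j, pot1 φ (w * q * star w) (x j) =
        m * pot1 ψ q (star w * x j * w) := by
      intro q hq j
      have e1 : w * q * star w * x j * (w * q * star w) =
          w * (q * (star w * x j * w) * q) * star w := by
        simp only [mul_assoc]
      set z := q * (star w * x j * w) * q with hz
      have e2 : star (w * z * star w) * (w * z * star w) = w * (star z * z) * star w := by
        rw [star_mul, star_mul, star_star]
        calc w * (star z * star w) * (w * z * star w) =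
              w * star z * (star w * w) * z * star w := by simp only [mul_assoc]
          _ = _ := by rw [hw1]; simp only [mul_assoc, mul_one]
      rw [pot1, pot1, e1, e2, hφψ, hφψ, hφψ, ← hz, Complex.re_ofReal_mul, Complex.re_ofReal_mul,
        norm_mul, Complex.norm_real, Real.norm_of_nonneg hm.le, mul_pow, mul_sub]
      congr 1
      rcases eq_or_ne (ψ q).re 0 with h0 | h0
      · rw [h0]; simp
      · field_simp
    have h2 : ∀ j, pot1 φ p (x j) = m * ((ψ (star (star w * x j * w) * (star w * x j * w))).re -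
        ‖ψ (star w * x j * w)‖ ^ 2) := by
      intro j
      set z := star w * x j * w with hz
      have e1 : p * x j * p = w * z * star w := (hpyp (x j)).symm
      have e2 : star (w * z * star w) * (w * z * star w) = w * (star z * z) * star w := by
        rw [star_mul, star_mul, star_star]
        calc w * (star z * star w) * (w * z * star w) =
              w * star z * (star w * w) * z * star w := by simp only [mul_assoc]
          _ = _ := by rw [hw1]; simp only [mul_assoc, mul_one]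
      rw [pot1, e1, e2, hφψ, hφψ, Complex.re_ofReal_mul, norm_mul, Complex.norm_real,
        Real.norm_of_nonneg hm.le, mul_pow, mul_sub]
      congr 1
      rw [← hmdef]
      field_simp
    have h3 : ∑ j, ∑ q ∈ Q, pot1 φ (w * q * star w) (x j) =
        m * ∑ j, pot ψ Q (star w * x j * w) := by
      rw [Finset.mul_sum]
      refine Finset.sum_congr rfl fun j _ => ?_
      rw [pot, Finset.mul_sum]
      exact Finset.sum_congr rfl fun q hq => h1 q hq j
    rw [h3]
    simp only [h2]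
    rw [← Finset.mul_sum]
    have h4 := mul_le_mul_of_nonneg_left hpot hm.le
    linarith

/-- **The refinement step.** -/
theorem step {M : VonNeumannAlgebra H} (hM : IsTypeIIIOneFactor M)
    {φ : (H →L[ℂ] H) → ℂ} (hφ : IsNormalState M φ) (hf : IsFaithful M φ)
    {ι : Type} [Fintype ι] {x : ι → H →L[ℂ] H} (hx : ∀ j, x j ∈ M) {ε : ℝ} (hε : 0 < ε)
    {P : Finset (H →L[ℂ] H)} (hP : Part M P) :
    ∃ P' : Finset (H →L[ℂ] H), Part M P' ∧ Ref P P' ∧
      (∀ y ∈ M, ‖φ (pinch P' y) - φ (pinch P y)‖ ≤ ε * ‖y‖) ∧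
      (∃ ρ, NPF M ρ ε ∧ ∀ y ∈ M, (φ (pinch P' (star y * y))).re ≤
        (1 + ε) * (φ (pinch P (star y * y))).re + (ρ (star y * y)).re) ∧
      ∑ j, pot φ P' (x j) ≤ 7 / 8 * ∑ j, pot φ P (x j) + ε := by
  classical
  have hall : ∀ p ∈ P, ∃ (w : H →L[ℂ] H) (Q : Finset (H →L[ℂ] H)) (ρ : (H →L[ℂ] H) → ℂ),
      w ∈ M ∧ star w * w = 1 ∧
      w * star w = p ∧ Part M Q ∧
      (∀ y ∈ M, ‖φ (w * pinch Q (star w * y * w) * star w) - φ (p * y * p)‖ ≤
        (φ p).re * (ε * ‖y‖)) ∧
      NPF M ρ ((φ p).re * ε) ∧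
      (∀ y ∈ M, (φ (w * pinch Q (star w * (star y * y) * w) * star w)).re ≤
        (1 + ε) * (φ (p * (star y * y) * p)).re + (ρ (star y * y)).re) ∧
      ∑ j, ∑ q ∈ Q, pot1 φ (w * q * star w) (x j) ≤
        7 / 8 * ∑ j, pot1 φ p (x j) + (φ p).re * ε := fun p hp =>
    block_corner hM hφ hf hx hε (hP.pr p hp) (hP.ne p hp)
  choose! w Q ρ hw hw1 hw2 hQ hclose hρ hdom hpot using hall
  have hsum1 : ∑ p ∈ P, (φ p).re = 1 := by
    rw [← Complex.re_sum, ← state_sum hφ P fun p hp => (hP.pr p hp).mem, hP.sum, state_one hφ]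
    rfl
  have hpw : ∀ p ∈ P, p * w p = w p := by
    intro p hp
    calc p * w p = (w p * star (w p)) * w p := by rw [hw2 p hp]
      _ = w p := by rw [mul_assoc, hw1 p hp, mul_one]
  set f : (H →L[ℂ] H) → (H →L[ℂ] H) → (H →L[ℂ] H) := fun p q => w p * q * star (w p) with hfdef
  set P' : Finset (H →L[ℂ] H) := P.biUnion fun p => (Q p).image (f p) with hP'
  have hinj : ∀ p ∈ P, ∀ q q' : H →L[ℂ] H, f p q = f p q' → q = q' := by
    intro p hp q q' h
    have h1 : ∀ q : H →L[ℂ] H, star (w p) * f p q * w p = q := by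
      intro q
      show star (w p) * (w p * q * star (w p)) * w p = q
      calc star (w p) * (w p * q * star (w p)) * w p =
            (star (w p) * w p) * q * (star (w p) * w p) := by simp only [mul_assoc]
        _ = q := by rw [hw1 p hp, one_mul, mul_one]
    rw [← h1 q, h, h1]
  have hfpr : ∀ p ∈ P, ∀ q ∈ Q p, Cmp.IsPr M (f p q) := by
    intro p hp q hq
    have hqp := (hQ p hp).pr q hq
    refine ⟨mul_mem (mul_mem (hw p hp) hqp.mem) (star_mem (hw p hp)), ?_, ?_⟩
    · show star (w p * q * star (w p)) = w p * q * star (w p)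
      rw [star_mul, star_mul, star_star, hqp.sa, mul_assoc]
    · show w p * q * star (w p) * (w p * q * star (w p)) = w p * q * star (w p)
      calc w p * q * star (w p) * (w p * q * star (w p)) =
            w p * q * (star (w p) * w p) * q * star (w p) := by simp only [mul_assoc]
        _ = w p * (q * q) * star (w p) := by
            rw [hw1 p hp]; simp only [mul_assoc, mul_one]
        _ = _ := by rw [hqp.idem]
  have hfne : ∀ p ∈ P, ∀ q ∈ Q p, f p q ≠ 0 := by
    intro p hp q hq h0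
    apply (hQ p hp).ne q hq
    apply hinj p hp
    rw [h0]
    show 0 = w p * 0 * star (w p)
    simp
  have hforth : ∀ p ∈ P, ∀ q ∈ Q p, ∀ p' ∈ P, ∀ q' ∈ Q p', p ≠ p' → f p q * f p' q' = 0 := by
    intro p hp q hq p' hp' q' hq' hne
    show w p * q * star (w p) * (w p' * q' * star (w p')) = 0
    have h1 : star (w p) * w p' = 0 := by
      have h2 : star (w p) = star (w p) * p := by
        have := congrArg star (hpw p hp)
        rw [star_mul, (hP.pr p hp).sa] at this
        exact this.symm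
      rw [h2, ← hpw p' hp', mul_assoc, ← mul_assoc p, hP.orth p hp p' hp' hne]
      simp
    calc w p * q * star (w p) * (w p' * q' * star (w p')) =
          w p * q * (star (w p) * w p') * q' * star (w p') := by simp only [mul_assoc]
      _ = 0 := by rw [h1]; simp
  have hforth' : ∀ p ∈ P, ∀ q ∈ Q p, ∀ q' ∈ Q p, q ≠ q' → f p q * f p q' = 0 := by
    intro p hp q hq q' hq' hne
    show w p * q * star (w p) * (w p * q' * star (w p)) = 0
    calc w p * q * star (w p) * (w p * q' * star (w p)) =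
          w p * q * (star (w p) * w p) * q' * star (w p) := by simp only [mul_assoc]
      _ = w p * (q * q') * star (w p) := by
          rw [hw1 p hp]; simp only [mul_assoc, mul_one]
      _ = 0 := by rw [(hQ p hp).orth q hq q' hq' hne]; simp
  have hmem : ∀ r ∈ P', ∃ p ∈ P, ∃ q ∈ Q p, f p q = r := by
    intro r hr
    obtain ⟨p, hp, hr⟩ := Finset.mem_biUnion.1 hr
    obtain ⟨q, hq, rfl⟩ := Finset.mem_image.1 hr
    exact ⟨p, hp, q, hq, rfl⟩
  have hsumO : ∀ F : (H →L[ℂ] H) → (H →L[ℂ] H),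
      ∑ r ∈ P', F r = ∑ p ∈ P, ∑ q ∈ Q p, F (f p q) := by
    intro F
    rw [hP', Finset.sum_biUnion]
    · refine Finset.sum_congr rfl fun p hp => ?_
      rw [Finset.sum_image]
      intro q _ q' _ h
      exact hinj p hp q q' h
    · intro p hp p' hp' hne
      rw [Function.onFun, Finset.disjoint_left]
      intro r hr hr'
      obtain ⟨q, hq, rfl⟩ := Finset.mem_image.1 hr
      obtain ⟨q', hq', h1⟩ := Finset.mem_image.1 hr'
      have h2 := hforth p hp q hq p' hp' q' hq' hne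
      rw [h1, (hfpr p hp q hq).idem] at h2
      exact hfne p hp q hq h2
  have hsumR : ∀ F : (H →L[ℂ] H) → ℝ,
      ∑ r ∈ P', F r = ∑ p ∈ P, ∑ q ∈ Q p, F (f p q) := by
    intro F
    rw [hP', Finset.sum_biUnion]
    · refine Finset.sum_congr rfl fun p hp => ?_
      rw [Finset.sum_image]
      intro q _ q' _ h
      exact hinj p hp q q' h
    · intro p hp p' hp' hne
      rw [Function.onFun, Finset.disjoint_left]
      intro r hr hr'
      obtain ⟨q, hq, rfl⟩ := Finset.mem_image.1 hr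
      obtain ⟨q', hq', h1⟩ := Finset.mem_image.1 hr'
      have h2 := hforth p hp q hq p' hp' q' hq' hne
      rw [h1, (hfpr p hp q hq).idem] at h2
      exact hfne p hp q hq h2
  have hpinM : ∀ p ∈ P, ∀ y ∈ M, pinch (Q p) y ∈ M := fun p hp y hy =>
    sum_mem fun q hq => mul_mem (mul_mem ((hQ p hp).pr q hq).mem hy) ((hQ p hp).pr q hq).mem
  have hwyM : ∀ p ∈ P, ∀ y ∈ M, star (w p) * y * w p ∈ M := fun p hp y hy =>
    mul_mem (mul_mem (star_mem (hw p hp)) hy) (hw p hp)
  have hpin' : ∀ y, pinch P' y =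
      ∑ p ∈ P, w p * pinch (Q p) (star (w p) * y * w p) * star (w p) := by
    intro y
    rw [pinch, hsumO (fun r => r * y * r)]
    refine Finset.sum_congr rfl fun p _ => ?_
    rw [pinch, Finset.mul_sum, Finset.sum_mul]
    refine Finset.sum_congr rfl fun q _ => ?_
    show w p * q * star (w p) * y * (w p * q * star (w p)) = _
    simp only [mul_assoc]
  have hφP' : ∀ y ∈ M, φ (pinch P' y) =
      ∑ p ∈ P, φ (w p * pinch (Q p) (star (w p) * y * w p) * star (w p)) := by
    intro y hy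
    rw [hpin', state_sum hφ]
    intro p hp
    exact mul_mem (mul_mem (hw p hp) (hpinM p hp _ (hwyM p hp y hy))) (star_mem (hw p hp))
  have hφP : ∀ y ∈ M, φ (pinch P y) = ∑ p ∈ P, φ (p * y * p) := by
    intro y hy
    rw [pinch, state_sum hφ]
    intro p hp
    exact mul_mem (mul_mem (hP.pr p hp).mem hy) (hP.pr p hp).mem
  refine ⟨P', ⟨?_, ?_, ?_, ?_⟩, ?_, fun y hy => ?_, ?_, ?_⟩
  · intro r hr
    obtain ⟨p, hp, q, hq, rfl⟩ := hmem r hr
    exact hfpr p hp q hq
  · intro r hr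
    obtain ⟨p, hp, q, hq, rfl⟩ := hmem r hr
    exact hfne p hp q hq
  · intro r hr r' hr' hne
    obtain ⟨p, hp, q, hq, rfl⟩ := hmem r hr
    obtain ⟨p', hp', q', hq', rfl⟩ := hmem r' hr'
    by_cases h : p = p'
    · subst h
      exact hforth' p hp q hq q' hq' fun h1 => hne (by rw [h1])
    · exact hforth p hp q hq p' hp' q' hq' h
  · rw [hsumO (fun r => r), ← hP.sum]
    refine Finset.sum_congr rfl fun p hp => ?_
    have h1 : ∑ q ∈ Q p, f p q = w p * (∑ q ∈ Q p, q) * star (w p) := by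
      rw [Finset.mul_sum, Finset.sum_mul]
    rw [h1, (hQ p hp).sum, mul_one, hw2 p hp]
  · intro r hr
    obtain ⟨p, hp, q, hq, rfl⟩ := hmem r hr
    refine ⟨p, hp, ?_⟩
    show p * (w p * q * star (w p)) = w p * q * star (w p)
    rw [← mul_assoc, ← mul_assoc, hpw p hp]
  · rw [hφP' y hy, hφP y hy, ← Finset.sum_sub_distrib]
    refine (norm_sum_le _ _).trans ((Finset.sum_le_sum fun p hp => hclose p hp y hy).trans ?_)
    rw [← Finset.sum_mul, hsum1, one_mul]
  · obtain ⟨θ, hθ1, hθ⟩ := NPF.sum P (fun p hp => hρ p hp)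
    refine ⟨θ, ?_, fun y hy => ?_⟩
    · rw [← Finset.sum_mul, hsum1, one_mul] at hθ1
      exact hθ1
    · have hyy : star y * y ∈ M := mul_mem (star_mem hy) hy
      rw [hφP' _ hyy, hφP _ hyy, hθ _ hyy, Complex.re_sum, Complex.re_sum, Complex.re_sum,
        Finset.mul_sum, ← Finset.sum_add_distrib]
      exact Finset.sum_le_sum fun p hp => hdom p hp y hy
  · have h1 : ∑ j, pot φ P' (x j) = ∑ p ∈ P, ∑ j, ∑ q ∈ Q p, pot1 φ (f p q) (x j) := by
      rw [Finset.sum_comm]
      refine Finset.sum_congr rfl fun j _ => ?_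
      rw [pot, hsumR (fun r => pot1 φ r (x j))]
    have h2 : ∑ j, pot φ P (x j) = ∑ p ∈ P, ∑ j, pot1 φ p (x j) := by
      rw [Finset.sum_comm]
      rfl
    rw [h1, h2, Finset.mul_sum]
    refine (Finset.sum_le_sum fun p hp => hpot p hp).trans ?_
    rw [Finset.sum_add_distrib, ← Finset.sum_mul, hsum1, one_mul]

end Vale.Agent.P132
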