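import Vale.Agent.P132.M723.Core

/-!
# P132: vector estimates for a partition almost commuting with the vector
-/

open Filter Topology
open scoped ComplexConjugate InnerProductSpace BoundedContinuousFunction

namespace Vale.Agent.P132

universe u

variable {H : Type u} [NormedAddCommGroup H] [InnerProductSpace ℂ H] [CompleteSpace H]

theorem sq_add_le (a b : ℝ) {τ : ℝ} (hτ : 0 < τ) :
    (a + b) ^ 2 ≤ (1 + τ) * a ^ 2 + (1 + τ⁻¹) * b ^ 2 := by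
  have h1 : 0 ≤ (τ * a - b) ^ 2 * τ⁻¹ := by positivity
  have h2 : (τ * a - b) ^ 2 * τ⁻¹ = τ * a ^ 2 - 2 * a * b + τ⁻¹ * b ^ 2 := by
    field_simp
    ring
  nlinarith

namespace ModData

set_option linter.unusedSectionVars false

variable {M : VonNeumannAlgebra H} {ξ : H} (D : ModData M ξ) {n : ℕ} {e : ℕ → H →L[ℂ] H}

theorem sum_R_inner (h : PU M n e) {y : H →L[ℂ] H} (hy : y ∈ M) :
    ∑ l ∈ Finset.range n, ⟪D.Rm (e l) ξ, y (D.Rm (e l) ξ)⟫_ℂ = ⟪ξ, y ξ⟫_ℂ := by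
  have h1 : ∀ l, ⟪D.Rm (e l) ξ, y (D.Rm (e l) ξ)⟫_ℂ = ⟪ξ, y (D.Rm (e l) ξ)⟫_ℂ := by
    intro l
    have hs := D.Rm_sa (h.pr l).sa
    have hi := D.Rm_idem (h.pr l).idem
    rw [← BC.inner_star', hs, ← D.comm_Rm hy (h.pr l).mem]
    congr 1
    exact congrArg (fun T : H →L[ℂ] H => y (T ξ)) hi
  simp only [h1]
  rw [← inner_sum, ← map_sum]
  congr 2
  have h2 : ∑ l ∈ Finset.range n, D.Rm (e l) ξ = (∑ l ∈ Finset.range n, D.Rm (e l)) ξ := by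
    rw [sum_apply]
  rw [h2, ← D.Rm_sum, h.sum, D.Rm_one]
  rfl

theorem sum_R_norm (h : PU M n e) {y : H →L[ℂ] H} (hy : y ∈ M) :
    ∑ l ∈ Finset.range n, ‖y (D.Rm (e l) ξ)‖ ^ 2 = ‖y ξ‖ ^ 2 := by
  rw [norm_sq_R (D := D) h (y ξ)]
  refine Finset.sum_congr rfl fun l _ => ?_
  rw [D.comm_Rm hy (h.pr l).mem]

include D in
theorem sum_e_sq (h : PU M n e) : ∑ l ∈ Finset.range n, ‖e l ξ‖ ^ 2 = 1 := by
  rw [← h.norm_sq ξ, D.norm_xi]; norm_num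

/-- closeness -/
theorem vec_close (h : PU M n e) {τ : ℝ} (hτ : 0 < τ) (hτ1 : τ ≤ 1)
    (hc : ∑ l ∈ Finset.range n, ‖D.cm (e l) ξ‖ ^ 2 ≤ τ ^ 4) {y : H →L[ℂ] H} (hy : y ∈ M) :
    ‖∑ l ∈ Finset.range n, ⟪e l ξ, y (e l ξ)⟫_ℂ - ⟪ξ, y ξ⟫_ℂ‖ ≤ 3 * τ * ‖y‖ := by
  rw [← D.sum_R_inner h hy, ← Finset.sum_sub_distrib]
  have h1 : ∀ l, ⟪e l ξ, y (e l ξ)⟫_ℂ - ⟪D.Rm (e l) ξ, y (D.Rm (e l) ξ)⟫_ℂ =
      ⟪D.cm (e l) ξ, y (e l ξ)⟫_ℂ + ⟪D.Rm (e l) ξ, y (D.cm (e l) ξ)⟫_ℂ := by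
    intro l
    rw [cm, inner_sub_left, map_sub, inner_sub_right]
    ring
  have h2 : ∀ l, ‖⟪e l ξ, y (e l ξ)⟫_ℂ - ⟪D.Rm (e l) ξ, y (D.Rm (e l) ξ)⟫_ℂ‖ ≤
      ‖y‖ * ((2 * τ)⁻¹ * ‖D.cm (e l) ξ‖ ^ 2 + τ * (‖e l ξ‖ ^ 2 + ‖D.Rm (e l) ξ‖ ^ 2)) := by
    intro l
    rw [h1]
    have a1 : ‖⟪D.cm (e l) ξ, y (e l ξ)⟫_ℂ‖ ≤ ‖D.cm (e l) ξ‖ * (‖y‖ * ‖e l ξ‖) :=
      (norm_inner_le_norm _ _).trans (mul_le_mul_of_nonneg_left (y.le_opNorm _) (norm_nonneg _))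
    have a2 : ‖⟪D.Rm (e l) ξ, y (D.cm (e l) ξ)⟫_ℂ‖ ≤ ‖D.Rm (e l) ξ‖ * (‖y‖ * ‖D.cm (e l) ξ‖) :=
      (norm_inner_le_norm _ _).trans (mul_le_mul_of_nonneg_left (y.le_opNorm _) (norm_nonneg _))
    refine (norm_add_le _ _).trans ((add_le_add a1 a2).trans ?_)
    have a3 : ‖D.cm (e l) ξ‖ * (‖y‖ * ‖e l ξ‖) + ‖D.Rm (e l) ξ‖ * (‖y‖ * ‖D.cm (e l) ξ‖) =
        ‖y‖ * (‖D.cm (e l) ξ‖ * (‖e l ξ‖ + ‖D.Rm (e l) ξ‖)) := by ring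
    rw [a3]
    apply mul_le_mul_of_nonneg_left _ (norm_nonneg _)
    set c := ‖D.cm (e l) ξ‖
    set a := ‖e l ξ‖
    set b := ‖D.Rm (e l) ξ‖
    have a4 : 0 ≤ (c - τ * (a + b)) ^ 2 * (2 * τ)⁻¹ := by positivity
    have a5 : (c - τ * (a + b)) ^ 2 * (2 * τ)⁻¹ =
        (2 * τ)⁻¹ * c ^ 2 - c * (a + b) + τ / 2 * (a + b) ^ 2 := by
      field_simp
      ring
    nlinarith [mul_nonneg hτ.le (sq_nonneg (a - b))]
  refine (norm_sum_le _ _).trans ((Finset.sum_le_sum fun l _ => h2 l).trans ?_)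
  rw [← Finset.mul_sum, Finset.sum_add_distrib, ← Finset.mul_sum, ← Finset.mul_sum,
    Finset.sum_add_distrib, D.sum_e_sq h]
  have h3 : ∑ l ∈ Finset.range n, ‖D.Rm (e l) ξ‖ ^ 2 = 1 := by
    rw [← norm_sq_R (D := D) h ξ, D.norm_xi]; norm_num
  rw [h3]
  have h4 : (2 * τ)⁻¹ * ∑ l ∈ Finset.range n, ‖D.cm (e l) ξ‖ ^ 2 ≤ τ := by
    calc _ ≤ (2 * τ)⁻¹ * τ ^ 4 := by gcongr
      _ = τ ^ 3 / 2 := by field_simp
      _ ≤ τ := by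
        have : τ ^ 3 ≤ τ := by
          calc τ ^ 3 = τ * (τ * τ) := by ring
            _ ≤ τ * (1 * 1) := by gcongr
            _ = τ := by ring
        linarith
  rw [mul_comm (3 * τ)]
  apply mul_le_mul_of_nonneg_left _ (norm_nonneg _)
  linarith

/-- domination -/
theorem vec_dom (h : PU M n e) {τ : ℝ} (hτ : 0 < τ) {y : H →L[ℂ] H} (hy : y ∈ M) :
    ∑ l ∈ Finset.range n, ‖y (e l ξ)‖ ^ 2 ≤ (1 + τ) * ‖y ξ‖ ^ 2 +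
      (1 + τ⁻¹) * ∑ l ∈ Finset.range n, ‖y (D.cm (e l) ξ)‖ ^ 2 := by
  rw [← D.sum_R_norm h hy, Finset.mul_sum, Finset.mul_sum, ← Finset.sum_add_distrib]
  refine Finset.sum_le_sum fun l _ => ?_
  have h1 : y (e l ξ) = y (D.Rm (e l) ξ) + y (D.cm (e l) ξ) := by
    rw [cm, map_sub]; abel
  have h2 : ‖y (e l ξ)‖ ≤ ‖y (D.Rm (e l) ξ)‖ + ‖y (D.cm (e l) ξ)‖ := by
    rw [h1]; exact norm_add_le _ _
  exact (pow_le_pow_left₀ (norm_nonneg _) h2 2).trans (sq_add_le _ _ hτ)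

/-- the pinched vectors -/
theorem vec_pinch (h : PU M n e) {τ : ℝ} (hτ : 0 < τ) (hτ1 : τ ≤ 1)
    (hc : ∑ l ∈ Finset.range n, ‖D.cm (e l) ξ‖ ^ 2 ≤ τ ^ 4) {x : H →L[ℂ] H} (hx : x ∈ M) :
    ∑ l ∈ Finset.range n, ‖e l (x (e l ξ))‖ ^ 2 ≤
      ∑ l ∈ Finset.range n, D.jw e (x ξ) l l + 3 * τ * ‖x‖ ^ 2 := by
  have h1 : ∀ l, ‖e l (x (e l ξ))‖ ^ 2 ≤
      (1 + τ) * D.jw e (x ξ) l l + (1 + τ⁻¹) * (‖x‖ * ‖D.cm (e l) ξ‖) ^ 2 := by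
    intro l
    have h2 : e l (x (e l ξ)) = e l (D.Rm (e l) (x ξ)) + e l (x (D.cm (e l) ξ)) := by
      rw [← D.comm_Rm hx (h.pr l).mem, ← map_add, ← map_add]
      congr 2
      rw [cm]; abel
    have h3 : ‖e l (x (D.cm (e l) ξ))‖ ≤ ‖x‖ * ‖D.cm (e l) ξ‖ :=
      (Gf.norm_pr_le (h.pr l).sa (h.pr l).idem _).trans (x.le_opNorm _)
    have h4 : ‖e l (x (e l ξ))‖ ≤ ‖e l (D.Rm (e l) (x ξ))‖ + ‖x‖ * ‖D.cm (e l) ξ‖ := by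
      rw [h2]
      exact (norm_add_le _ _).trans (add_le_add le_rfl h3)
    exact (pow_le_pow_left₀ (norm_nonneg _) h4 2).trans (sq_add_le _ _ hτ)
  refine (Finset.sum_le_sum fun l _ => h1 l).trans ?_
  rw [Finset.sum_add_distrib, ← Finset.mul_sum, ← Finset.mul_sum]
  simp only [mul_pow]
  rw [← Finset.mul_sum]
  have h5 : ∑ l ∈ Finset.range n, D.jw e (x ξ) l l ≤ ‖x‖ ^ 2 := by
    calc ∑ l ∈ Finset.range n, D.jw e (x ξ) l l ≤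
          ∑ i ∈ Finset.range n, ∑ k ∈ Finset.range n, D.jw e (x ξ) i k := by
          refine Finset.sum_le_sum fun i hi => ?_
          exact Finset.single_le_sum (f := fun k => D.jw e (x ξ) i k)
            (fun k _ => D.jw_nonneg e (x ξ) i k) hi
      _ = ‖x ξ‖ ^ 2 := (D.norm_sq_jw h (x ξ)).symm
      _ ≤ ‖x‖ ^ 2 := by
          apply pow_le_pow_left₀ (norm_nonneg _)
          have := x.le_opNorm ξ
          rwa [D.norm_xi, mul_one] at this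
  have h6 : (1 + τ⁻¹) * (‖x‖ ^ 2 * ∑ l ∈ Finset.range n, ‖D.cm (e l) ξ‖ ^ 2) ≤
      2 * τ * ‖x‖ ^ 2 := by
    calc _ ≤ (1 + τ⁻¹) * (‖x‖ ^ 2 * τ ^ 4) := by gcongr
      _ = (τ ^ 4 + τ ^ 3) * ‖x‖ ^ 2 := by field_simp
      _ ≤ 2 * τ * ‖x‖ ^ 2 := by
        have h7 : τ ^ 3 ≤ τ := by
          calc τ ^ 3 = τ * (τ * τ) := by ring
            _ ≤ τ * (1 * 1) := by gcongr
            _ = τ := by ring
        have h8 : τ ^ 4 ≤ τ := by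
          calc τ ^ 4 = τ * τ ^ 3 := by ring
            _ ≤ τ * 1 := by
              apply mul_le_mul_of_nonneg_left _ hτ.le
              exact h7.trans hτ1
            _ = τ := by ring
        gcongr
        linarith
  nlinarith

end ModData

end Vale.Agent.P132
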